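import Vale.Agent.P287T.Cy.Defs
import Mathlib.Analysis.Normed.Module.FiniteDimension
import Mathlib.Analysis.Analytic.Linear
import Mathlib.Analysis.Analytic.Constructions
import Mathlib.Analysis.Calculus.FDeriv.Analytic
import Mathlib.Analysis.Calculus.FDeriv.Bilinear

/-!
# The normed model of the spaces of homogeneous matrices (P287 phase 2, block DEF)

The finite-dimensional spaces `MM p q j` and `Hs n` get a norm (scoped instances). Continuity,
convergence and analyticity can be tested on coefficients.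
-/

open MvPolynomial Filter Topology

namespace Vale.Agent.P287T.Df

open Vale.Agent.P287Z.O Vale.Agent.P287Z.O.L Vale.Agent.P287T.Cy

section gen

variable {E A : Type*} [AddCommGroup E] [Module ℂ E] [Module.Finite ℂ E]

/-- a norm on a finite-dimensional space -/
noncomputable abbrev nmGrp (E : Type*) [AddCommGroup E] [Module ℂ E] [Module.Finite ℂ E] :
    NormedAddCommGroup E :=
  NormedAddCommGroup.induced E (Fin (Module.finrank ℂ E) → ℂ) (Module.finBasis ℂ E).equivFun
    (Module.finBasis ℂ E).equivFun.injective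

/-- the normed space structure for `nmGrp` -/
noncomputable abbrev nmSp (E : Type*) [AddCommGroup E] [Module ℂ E] [Module.Finite ℂ E] :
    @NormedSpace ℂ E _ (nmGrp E).toSeminormedAddCommGroup :=
  NormedSpace.induced ℂ E (Fin (Module.finrank ℂ E) → ℂ) (Module.finBasis ℂ E).equivFun

/-- a separating family of functionals gives coordinates -/
theorem nm_rep (φ : A → E →ₗ[ℂ] ℂ) (h : ∀ v, (∀ a, φ a v = 0) → v = 0) :
    ∃ (s : Finset A) (v : A → E), ∀ x, x = ∑ a ∈ s, φ a x • v a := by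
  classical
  let b := Module.finBasis ℂ E
  have h1 : ∀ k, ∃ c : A →₀ ℂ, (c.sum fun a r => r • φ a) = b.coord k := by
    intro k
    rw [← Finsupp.mem_span_range_iff_exists_finsupp]
    refine FiniteDimensional.mem_span_of_iInf_ker_le_ker fun x hx => ?_
    rw [h x fun a => (Submodule.mem_iInf _).1 hx a]
    exact Submodule.zero_mem _
  choose c hc using h1
  refine ⟨Finset.univ.biUnion fun k => (c k).support, fun a => ∑ k, c k a • b k, fun x => ?_⟩
  simp only [Finset.smul_sum]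
  rw [Finset.sum_comm]
  refine (b.sum_repr x).symm.trans (Finset.sum_congr rfl fun k _ => ?_)
  have h2 : b.repr x k = ∑ a ∈ Finset.univ.biUnion fun k => (c k).support, φ a x * c k a := by
    rw [← b.coord_apply, ← hc k, Finsupp.sum_of_support_subset (c k)
      (s := Finset.univ.biUnion fun k => (c k).support)
      (Finset.subset_biUnion_of_mem (fun k => (c k).support) (Finset.mem_univ k)) _
      (fun a _ => zero_smul ℂ (φ a)), LinearMap.sum_apply]
    exact Finset.sum_congr rfl fun a _ => mul_comm _ _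
  rw [h2, Finset.sum_smul]
  exact Finset.sum_congr rfl fun a _ => mul_smul _ _ _

end gen

section weak

variable {E A T : Type*} [NormedAddCommGroup E] [NormedSpace ℂ E] [FiniteDimensional ℂ E]
  (φ : A → E →ₗ[ℂ] ℂ) (h : ∀ v, (∀ a, φ a v = 0) → v = 0)

include h

theorem nm_tendsto {f : T → E} {l : Filter T} {x : E} :
    Tendsto f l (𝓝 x) ↔ ∀ a, Tendsto (fun t => φ a (f t)) l (𝓝 (φ a x)) := by
  refine ⟨fun hf a => ((φ a).continuous_of_finiteDimensional.tendsto x).comp hf, fun hf => ?_⟩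
  obtain ⟨s, v, hv⟩ := nm_rep φ h
  rw [hv x, show f = fun t => ∑ a ∈ s, φ a (f t) • v a from funext fun t => hv (f t)]
  exact tendsto_finsetSum _ fun a _ => (hf a).smul_const _

variable [NormedAddCommGroup T] [NormedSpace ℂ T]

theorem nm_analyticAt {f : T → E} {t : T} :
    AnalyticAt ℂ f t ↔ ∀ a, AnalyticAt ℂ (fun t => φ a (f t)) t := by
  refine ⟨fun hf a => ((φ a).toContinuousLinearMap.analyticAt _).comp hf, fun hf => ?_⟩
  obtain ⟨s, v, hv⟩ := nm_rep φ h
  rw [show f = fun t => ∑ a ∈ s, φ a (f t) • v a from funext fun t => hv (f t)]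
  exact Finset.analyticAt_fun_sum _ fun a _ => (hf a).smul analyticAt_const

theorem nm_differentiableWithinAt {f : T → E} {t : T} {U : Set T} :
    DifferentiableWithinAt ℂ f U t ↔ ∀ a, DifferentiableWithinAt ℂ (fun t => φ a (f t)) U t := by
  refine ⟨fun hf a =>
    ((φ a).toContinuousLinearMap.differentiableAt).comp_differentiableWithinAt t hf, fun hf => ?_⟩
  obtain ⟨s, v, hv⟩ := nm_rep φ h
  rw [show f = fun t => ∑ a ∈ s, φ a (f t) • v a from funext fun t => hv (f t)]
  exact DifferentiableWithinAt.fun_sum fun a _ => (hf a).smul_const _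

end weak

/-- polynomials of charge `n` (degree `n / 2`) -/
def Hs (n : ℤ) : Submodule ℂ S6 where
  carrier := {f | V.Hg n f}
  zero_mem' := hga_zero _
  add_mem' := hga_add
  smul_mem' := fun c _ h => hga_smul c h

theorem mem_Hs {n : ℤ} {f : S6} : f ∈ Hs n ↔ V.Hg n f := Iff.rfl

scoped instance finHs (n : ℤ) : Module.Finite ℂ (Hs n) := by
  refine Submodule.finiteDimensional_of_le (S₂ := restrictTotalDegree (Fin 6) ℂ n.toNat)
    fun f hf => ?_
  rw [mem_restrictTotalDegree]
  refine Finset.sup_le fun m hm => ?_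
  have h1 := hg_iff.1 hf m hm
  have h2 : (m.sum fun _ e => e) = m.degree := rfl
  rw [h2]
  lia

variable {ι κ μ : Type}

scoped instance finMM [Finite ι] [Finite κ] (p : ι → ℤ) (q : κ → ℤ) (j : ℤ) :
    Module.Finite ℂ (MM p q j) := by
  let F : MM p q j →ₗ[ℂ] ∀ i l, Hs (j + p l - q i) :=
    { toFun := fun g i l => ⟨g.1 i l, g.2 i l⟩
      map_add' := fun _ _ => rfl
      map_smul' := fun _ _ => rfl }
  refine Module.Finite.of_injective F fun g g' h => ?_
  exact Subtype.ext (Matrix.ext fun i l => congrArg Subtype.val (congrFun (congrFun h i) l))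

noncomputable scoped instance ngHs (n : ℤ) : NormedAddCommGroup (Hs n) := nmGrp _

noncomputable scoped instance nsHs (n : ℤ) : NormedSpace ℂ (Hs n) := nmSp _

scoped instance cpHs (n : ℤ) : CompleteSpace (Hs n) := FiniteDimensional.complete ℂ _

noncomputable scoped instance ngMM [Finite ι] [Finite κ] (p : ι → ℤ) (q : κ → ℤ) (j : ℤ) :
    NormedAddCommGroup (MM p q j) := nmGrp _

noncomputable scoped instance nsMM [Finite ι] [Finite κ] (p : ι → ℤ) (q : κ → ℤ) (j : ℤ) :
    NormedSpace ℂ (MM p q j) := nmSp _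

scoped instance cpMM [Finite ι] [Finite κ] (p : ι → ℤ) (q : κ → ℤ) (j : ℤ) :
    CompleteSpace (MM p q j) := FiniteDimensional.complete ℂ _

/-- a coefficient of an element of `Hs n` -/
noncomputable def cfH (n : ℤ) (m : Fin 6 →₀ ℕ) : Hs n →ₗ[ℂ] ℂ := lcoeff ℂ m ∘ₗ (Hs n).subtype

/-- a coefficient of an entry -/
noncomputable def cfM (p : ι → ℤ) (q : κ → ℤ) (j : ℤ) (a : κ × ι × (Fin 6 →₀ ℕ)) :
    MM p q j →ₗ[ℂ] ℂ where
  toFun g := coeff a.2.2 (g.1 a.1 a.2.1)
  map_add' _ _ := coeff_add _ _ _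
  map_smul' _ _ := coeff_smul _ _ _

theorem cfH_sep (n : ℤ) (v : Hs n) (h : ∀ m, cfH n m v = 0) : v = 0 :=
  Subtype.ext (MvPolynomial.ext _ _ h)

theorem cfM_sep (p : ι → ℤ) (q : κ → ℤ) (j : ℤ) (v : MM p q j) (h : ∀ a, cfM p q j a v = 0) :
    v = 0 :=
  Subtype.ext (Matrix.ext fun i l => MvPolynomial.ext _ _ fun m => h (i, l, m))

section iff

variable {T : Type*} {n : ℤ} {p : ι → ℤ} {q : κ → ℤ} {j : ℤ} [Finite ι] [Finite κ]

theorem tendsto_Hs {f : T → Hs n} {l : Filter T} {x : Hs n} :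
    Tendsto f l (𝓝 x) ↔ ∀ m, Tendsto (fun t => coeff m (f t).1) l (𝓝 (coeff m x.1)) :=
  nm_tendsto (cfH n) (cfH_sep n)

theorem tendsto_MM {f : T → MM p q j} {L : Filter T} {x : MM p q j} :
    Tendsto f L (𝓝 x) ↔
      ∀ i l m, Tendsto (fun t => coeff m ((f t).1 i l)) L (𝓝 (coeff m (x.1 i l))) :=
  (nm_tendsto (cfM p q j) (cfM_sep p q j)).trans ⟨fun h i l m => h (i, l, m), fun h _ => h _ _ _⟩

section top

variable [TopologicalSpace T]

theorem continuousWithinAt_Hs {f : T → Hs n} {U : Set T} {t : T} :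
    ContinuousWithinAt f U t ↔ ∀ m, ContinuousWithinAt (fun t => coeff m (f t).1) U t :=
  tendsto_Hs

theorem continuousWithinAt_MM {f : T → MM p q j} {U : Set T} {t : T} :
    ContinuousWithinAt f U t ↔
      ∀ i l m, ContinuousWithinAt (fun t => coeff m ((f t).1 i l)) U t := tendsto_MM

theorem continuousAt_Hs {f : T → Hs n} {t : T} :
    ContinuousAt f t ↔ ∀ m, ContinuousAt (fun t => coeff m (f t).1) t := tendsto_Hs

theorem continuousAt_MM {f : T → MM p q j} {t : T} :
    ContinuousAt f t ↔ ∀ i l m, ContinuousAt (fun t => coeff m ((f t).1 i l)) t := tendsto_MM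

theorem continuousOn_Hs {f : T → Hs n} {U : Set T} :
    ContinuousOn f U ↔ ∀ m, ContinuousOn (fun t => coeff m (f t).1) U :=
  ⟨fun h m t ht => continuousWithinAt_Hs.1 (h t ht) m,
    fun h t ht => continuousWithinAt_Hs.2 fun m => h m t ht⟩

theorem continuousOn_MM {f : T → MM p q j} {U : Set T} :
    ContinuousOn f U ↔ ∀ i l m, ContinuousOn (fun t => coeff m ((f t).1 i l)) U :=
  ⟨fun h i l m t ht => continuousWithinAt_MM.1 (h t ht) i l m,
    fun h t ht => continuousWithinAt_MM.2 fun i l m => h i l m t ht⟩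

theorem continuous_Hs {f : T → Hs n} :
    Continuous f ↔ ∀ m, Continuous fun t => coeff m (f t).1 := by
  simp only [← continuousOn_univ]
  exact continuousOn_Hs

theorem continuous_MM {f : T → MM p q j} :
    Continuous f ↔ ∀ i l m, Continuous fun t => coeff m ((f t).1 i l) := by
  simp only [← continuousOn_univ]
  exact continuousOn_MM

end top

variable [NormedAddCommGroup T] [NormedSpace ℂ T]

theorem analyticAt_Hs {f : T → Hs n} {t : T} :
    AnalyticAt ℂ f t ↔ ∀ m, AnalyticAt ℂ (fun t => coeff m (f t).1) t :=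
  nm_analyticAt (cfH n) (cfH_sep n)

theorem analyticAt_MM {f : T → MM p q j} {t : T} :
    AnalyticAt ℂ f t ↔ ∀ i l m, AnalyticAt ℂ (fun t => coeff m ((f t).1 i l)) t :=
  (nm_analyticAt (cfM p q j) (cfM_sep p q j)).trans
    ⟨fun h i l m => h (i, l, m), fun h _ => h _ _ _⟩

theorem differentiableWithinAt_MM {f : T → MM p q j} {U : Set T} {t : T} :
    DifferentiableWithinAt ℂ f U t ↔
      ∀ i l m, DifferentiableWithinAt ℂ (fun t => coeff m ((f t).1 i l)) U t :=
  (nm_differentiableWithinAt (cfM p q j) (cfM_sep p q j)).trans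
    ⟨fun h i l m => h (i, l, m), fun h _ => h _ _ _⟩

theorem differentiableOn_MM {f : T → MM p q j} {U : Set T} :
    DifferentiableOn ℂ f U ↔ ∀ i l m, DifferentiableOn ℂ (fun t => coeff m ((f t).1 i l)) U :=
  ⟨fun h i l m t ht => differentiableWithinAt_MM.1 (h t ht) i l m,
    fun h t ht => differentiableWithinAt_MM.2 fun i l m => h i l m t ht⟩

end iff

/-- the projection of a matrix onto its homogeneous part -/
noncomputable def prj (p : ι → ℤ) (q : κ → ℤ) (j : ℤ) (g : Matrix κ ι S6) : MM p q j :=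
  ⟨Matrix.of fun i l => hpart (j + p l - q i) (g i l), fun _ _ => hga_hpart _ _⟩

theorem prj_of_mem {p : ι → ℤ} {q : κ → ℤ} {j : ℤ} {g : Matrix κ ι S6} (h : g ∈ MM p q j) :
    (prj p q j g).1 = g := Matrix.ext fun i l => hpart_eq_self (h i l)

theorem prj_val {p : ι → ℤ} {q : κ → ℤ} {j : ℤ} (g : MM p q j) : prj p q j g.1 = g :=
  Subtype.ext (prj_of_mem g.2)

theorem coeff_prj (p : ι → ℤ) (q : κ → ℤ) (j : ℤ) (g : Matrix κ ι S6) (i : κ) (l : ι)
    (m : Fin 6 →₀ ℕ) : coeff m ((prj p q j g).1 i l) =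
      if 2 * (m.degree : ℤ) = j + p l - q i then coeff m (g i l) else 0 := coeff_hpart _ _ _

theorem MM_mul [Fintype κ] {p : ι → ℤ} {q : κ → ℤ} {r : μ → ℤ} {a b c : ℤ} (h : a + b = c)
    {f : Matrix μ κ S6} {g : Matrix κ ι S6} (hf : f ∈ MM q r a) (hg : g ∈ MM p q b) :
    f * g ∈ MM p r c := fun i l => by
  rw [Matrix.mul_apply]
  exact hga_sum _ fun k _ => hga_mul' (hf i k) (hg k l) (by lia)

theorem MM_smul {p : ι → ℤ} {q : κ → ℤ} {a b c : ℤ} (h : a + b = c) {w : S6}
    {g : Matrix κ ι S6} (hw : w ∈ Hs a) (hg : g ∈ MM p q b) : w • g ∈ MM p q c := fun i l =>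
  hga_mul' hw (hg i l) (by lia)

theorem MM_one [DecidableEq ι] (p : ι → ℤ) : (1 : Matrix ι ι S6) ∈ MM p p 0 := fun i l => by
  rw [Matrix.one_apply]
  split_ifs with h
  · subst h
    rw [zero_add, sub_self]
    exact hga_one
  · exact hga_zero _

/-- the identity matrix -/
noncomputable def oneM [DecidableEq ι] (p : ι → ℤ) : MM p p 0 := ⟨1, MM_one p⟩

/-- matrix multiplication as a bilinear map -/
noncomputable def mulB [Fintype κ] (p : ι → ℤ) (q : κ → ℤ) (r : μ → ℤ) {a b c : ℤ}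
    (h : a + b = c) : MM q r a →ₗ[ℂ] MM p q b →ₗ[ℂ] MM p r c :=
  LinearMap.mk₂ ℂ (fun f g => ⟨f.1 * g.1, MM_mul h f.2 g.2⟩)
    (fun _ _ _ => Subtype.ext (Matrix.add_mul _ _ _))
    (fun _ _ _ => Subtype.ext (Matrix.smul_mul _ _ _))
    (fun _ _ _ => Subtype.ext (Matrix.mul_add _ _ _))
    (fun _ _ _ => Subtype.ext (Matrix.mul_smul _ _ _))

/-- multiplication by a polynomial as a bilinear map -/
noncomputable def smulB (p : ι → ℤ) (q : κ → ℤ) {a b c : ℤ} (h : a + b = c) :
    Hs a →ₗ[ℂ] MM p q b →ₗ[ℂ] MM p q c :=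
  LinearMap.mk₂ ℂ (fun w g => ⟨w.1 • g.1, MM_smul h w.2 g.2⟩)
    (fun _ _ _ => Subtype.ext (add_smul _ _ _))
    (fun _ _ _ => Subtype.ext (smul_assoc _ _ _))
    (fun _ _ _ => Subtype.ext (smul_add _ _ _))
    (fun _ _ _ => Subtype.ext (smul_comm _ _ _))

/-- a bilinear map of finite-dimensional normed spaces as a continuous bilinear map -/
noncomputable def toL2 {E F G : Type*} [NormedAddCommGroup E] [NormedSpace ℂ E]
    [FiniteDimensional ℂ E] [NormedAddCommGroup F] [NormedSpace ℂ F] [FiniteDimensional ℂ F]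
    [NormedAddCommGroup G] [NormedSpace ℂ G] (B : E →ₗ[ℂ] F →ₗ[ℂ] G) : E →L[ℂ] F →L[ℂ] G :=
  LinearMap.toContinuousLinearMap
    ((LinearMap.toContinuousLinearMap : (F →ₗ[ℂ] G) ≃ₗ[ℂ] F →L[ℂ] G).toLinearMap ∘ₗ B)

/-- matrix multiplication as a continuous bilinear map -/
noncomputable def mulL [Finite ι] [Fintype κ] [Finite μ] (p : ι → ℤ) (q : κ → ℤ) (r : μ → ℤ)
    {a b c : ℤ} (h : a + b = c) : MM q r a →L[ℂ] MM p q b →L[ℂ] MM p r c :=
  toL2 (mulB p q r h)

/-- multiplication by a polynomial as a continuous bilinear map -/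
noncomputable def smulL [Finite ι] [Finite κ] (p : ι → ℤ) (q : κ → ℤ) {a b c : ℤ}
    (h : a + b = c) : Hs a →L[ℂ] MM p q b →L[ℂ] MM p q c :=
  toL2 (smulB p q h)

theorem mulL_val [Finite ι] [Fintype κ] [Finite μ] (p : ι → ℤ) (q : κ → ℤ) (r : μ → ℤ)
    {a b c : ℤ} (h : a + b = c) (f : MM q r a) (g : MM p q b) :
    (mulL p q r h f g).1 = f.1 * g.1 := rfl

theorem smulL_val [Finite ι] [Finite κ] (p : ι → ℤ) (q : κ → ℤ) {a b c : ℤ} (h : a + b = c)
    (w : Hs a) (g : MM p q b) : (smulL p q h w g).1 = w.1 • g.1 := rfl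

end Vale.Agent.P287T.Df
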