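import Vale.Agent.P287T.Df.St
import Vale.Agent.P287T.G3.Br2
import Mathlib.Geometry.Manifold.IsManifold.Basic

/-!
# The moduli surface of a good class of matrix factorizations: definitions
-/

open MvPolynomial Filter Topology CategoryTheory
open scoped Manifold ContDiff

namespace Vale.Agent.P287T.Df

open Vale.Agent.P287T.Cy Vale.Agent.P287T.G3

/-- the differential of an object as a point of the space of matrices -/
def dM {W : S6} (E : HM W) : MM E.pz E.pz 3 := ⟨E.dz, E.isMF.deg⟩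

/-- the matrix `d` on the shape of `E` is a model of `F` -/
def Mdl {W : S6} (E : HM W) (d : MM E.pz E.pz 3) (F : HM W) : Prop :=
  ∃ h : IsMF W E.pz d.1, Nonempty (ofRaw h ≅ F)

/-- a class of objects whose isomorphism classes form a compact surface -/
structure Gd (W : S6) (Q : HM W → Prop) : Prop where
  iso : ∀ {E F : HM W}, Q E → Nonempty (E ≅ F) → Q F
  pt : ∀ {E : HM W}, Q E → Pt W E.pz E.dz
  schur : ∀ {E F : HM W}, Q E → Q F → ∀ f : E ⟶ F, f ≠ 0 → Nonempty (E ≅ F)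
  sl : ∀ {E : HM W}, Q E → ∃ s : (Fin 2 → ℂ) → MM E.pz E.pz 3, AnalyticAt ℂ s 0 ∧ s 0 = dM E ∧
    ∀ᶠ z in 𝓝 0, IsMF W E.pz (s z).1 ∧ KS E.pz (s z).1 (fderiv ℂ s z)
  op : ∀ {E : HM W}, Q E → ∀ᶠ d in 𝓝 (dM E), ∀ h : IsMF W E.pz d.1, Q (ofRaw h)
  cp : ∀ (I : Type) (𝒰 : Ultrafilter I) (X : I → HM W), (∀ n, Q (X n)) → ∃ E, Q E ∧
    ∃ d : I → MM E.pz E.pz 3, Tendsto d 𝒰 (𝓝 (dM E)) ∧ ∀ᶠ n in (𝒰 : Filter I), Mdl E (d n) (X n)

/-- the moduli surface -/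
structure Mdu (W : S6) (Q : HM W → Prop) where
  M : Type
  [top : TopologicalSpace M]
  [t2 : T2Space M]
  [cpt : CompactSpace M]
  [cs : ChartedSpace (Fin 2 → ℂ) M]
  [mfd : IsManifold 𝓘(ℂ, Fin 2 → ℂ) ω M]
  R : M → HM W
  q : ∀ x, Q (R x)
  inj : ∀ x y, Nonempty (R x ≅ R y) → x = y
  onto : ∀ E, Q E → ∃ x, Nonempty (R x ≅ E)
  u : ∀ x, (Fin 2 → ℂ) → MM (R x).pz (R x).pz 3
  u0 : ∀ x, u x (chartAt (Fin 2 → ℂ) x x) = dM (R x)
  an : ∀ x, AnalyticOnNhd ℂ (u x) (chartAt (Fin 2 → ℂ) x).target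
  mdl : ∀ x, ∀ z ∈ (chartAt (Fin 2 → ℂ) x).target,
    Mdl (R x) (u x z) (R ((chartAt (Fin 2 → ℂ) x).symm z))
  ks : ∀ x, ∀ z ∈ (chartAt (Fin 2 → ℂ) x).target, KS (R x).pz (u x z).1 (fderiv ℂ (u x) z)

attribute [instance] Mdu.top Mdu.t2 Mdu.cpt Mdu.cs Mdu.mfd

/-- **D3** -/
def StMod : Prop := ∀ (W : S6) (Q : HM W → Prop), Gd W Q → Nonempty (Mdu W Q)

end Vale.Agent.P287T.Df
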