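import Vale.Agent.P287T.Df.Nm

/-!
# Local deformation theory of matrix factorizations: statements (P287 phase 2, block DEF)

Tangent vectors to `{d * d = W}` at `d` are the elements of `ZZ p d p (-d) 3`, the tangent vectors
to the orbit are the elements of `BB p d p (-d) 3`.
-/

open MvPolynomial Filter Topology Module

namespace Vale.Agent.P287T.Df

open Vale.Agent.P287T.Cy

variable {ι : Type} [Fintype ι] [DecidableEq ι]

/-- matrix factorizations with the self-extensions of a point of a surface -/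
structure Pt (W : S6) (p : ι → ℤ) (d : Matrix ι ι S6) : Prop where
  mf : IsMF W p d
  hm : ZZ p d p d (-3) ≤ BB p d p d (-3)
  h0 : finrank ℂ (HH p d p d 0) = 1
  h1 : finrank ℂ (HH p d p d 3) = 2
  h2 : finrank ℂ (HH p d p d 6) ≤ 1

/-- the linear map `L` is a bijection onto the first order deformations modulo trivial ones -/
structure KS (p : ι → ℤ) (d : Matrix ι ι S6) {Z : Type} [NormedAddCommGroup Z] [NormedSpace ℂ Z]
    (L : Z →L[ℂ] MM p p 3) : Prop where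
  cl : ∀ z, (L z).1 ∈ ZZ p d p (-d) 3
  inj : ∀ z, (L z).1 ∈ BB p d p (-d) 3 → z = 0
  onto : ∀ g ∈ ZZ p d p (-d) 3, ∃ z, g - (L z).1 ∈ BB p d p (-d) 3

/-- in the family of potentials `w`, the deformations of `d0` are confined to the smooth
hypersurface `f = 0` -/
structure Conf {T : Type} [NormedAddCommGroup T] [NormedSpace ℂ T] (w : T → Hs 6) (t0 : T)
    (p : ι → ℤ) (d0 : MM p p 3) (f : T → ℂ) : Prop where
  an : AnalyticAt ℂ w t0
  fan : AnalyticAt ℂ f t0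
  df : fderiv ℂ f t0 ≠ 0
  conf : ∀ᶠ x : T × MM p p 3 in 𝓝 (t0, d0), IsMF (w x.1).1 p x.2.1 → f x.1 = 0

/-- the Kuranishi retraction along the kernel of a projection `π` onto the cocycles -/
def StKur : Prop := ∀ {ι : Type} [Fintype ι] [DecidableEq ι] {T : Type} [NormedAddCommGroup T]
  [NormedSpace ℂ T] [FiniteDimensional ℂ T] (w : T → Hs 6) (t0 : T) (p : ι → ℤ) (d0 : MM p p 3)
  (f : T → ℂ), IsMF (w t0).1 p d0.1 → finrank ℂ (HH p d0.1 p d0.1 6) ≤ 1 → Conf w t0 p d0 f →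
  ∀ π : MM p p 3 →L[ℂ] MM p p 3, (∀ g, (π g).1 ∈ ZZ p d0.1 p (-d0.1) 3) →
  (∀ g : MM p p 3, g.1 ∈ ZZ p d0.1 p (-d0.1) 3 → π g = g) →
  ∃ σ : T × MM p p 3 → MM p p 3, AnalyticAt ℂ σ (t0, d0) ∧ σ (t0, d0) = d0 ∧
    ∀ᶠ x : T × MM p p 3 in 𝓝 (t0, d0), π (σ x) = π x.2 ∧
      (f x.1 = 0 → IsMF (w x.1).1 p (σ x).1) ∧ (IsMF (w x.1).1 p x.2.1 → σ x = x.2)

/-- the slice: a two-dimensional family over the hypersurface `f = 0` whose Kodaira-Spencer map is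
bijective at every point -/
def StSlice : Prop := ∀ {ι : Type} [Fintype ι] [DecidableEq ι] {T : Type} [NormedAddCommGroup T]
  [NormedSpace ℂ T] [FiniteDimensional ℂ T] (w : T → Hs 6) (t0 : T) (p : ι → ℤ) (d0 : MM p p 3)
  (f : T → ℂ), Pt (w t0).1 p d0.1 → Conf w t0 p d0 f →
  ∃ s : T × (Fin 2 → ℂ) → MM p p 3, AnalyticAt ℂ s (t0, 0) ∧ s (t0, 0) = d0 ∧
    ∀ᶠ x : T × (Fin 2 → ℂ) in 𝓝 (t0, 0), f x.1 = 0 → Pt (w x.1).1 p (s x).1 ∧
      KS p (s x).1 (fderiv ℂ (fun z => s (x.1, z)) x.2)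

/-- semicontinuity of the spaces of maps, and of being nonzero up to homotopy -/
def StSc : Prop := ∀ {ι κ : Type} [Fintype ι] [DecidableEq ι] [Fintype κ] [DecidableEq κ]
  (p : ι → ℤ) (q : κ → ℤ) (d0 : MM p p 3) (e0 : MM q q 3) (W0 : S6), IsMF W0 p d0.1 →
  IsMF W0 q e0.1 → ∀ j : ℤ,
  (∀ᶠ x : MM p p 3 × MM q q 3 in 𝓝 (d0, e0), ∀ W, IsMF W p x.1.1 → IsMF W q x.2.1 →
    finrank ℂ (HH p x.1.1 q x.2.1 j) ≤ finrank ℂ (HH p d0.1 q e0.1 j)) ∧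
  (ZZ p d0.1 q e0.1 (j - 3) ≤ BB p d0.1 q e0.1 (j - 3) → ∀ g0 : MM p q j,
    g0.1 ∉ BB p d0.1 q e0.1 j → ∀ᶠ x : (MM p p 3 × MM q q 3) × MM p q j in 𝓝 ((d0, e0), g0),
      ∀ W, IsMF W p x.1.1.1 → IsMF W q x.1.2.1 → x.2.1 ∉ BB p x.1.1.1 q x.1.2.1 j)

end Vale.Agent.P287T.Df
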