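import Mathlib.Analysis.Calculus.ImplicitContDiff
import Mathlib.Analysis.Complex.AbsMax
import Mathlib.Analysis.Normed.Module.FiniteDimension
import Mathlib.Analysis.Normed.Module.HahnBanach
import Mathlib.Analysis.LocallyConvex.SeparatingDual
import Mathlib.Analysis.Calculus.ContDiff.Basic
import Mathlib.Analysis.Normed.Operator.Prod

/-!
# Abstract Kuranishi theory with one obstruction (P287 phase 2, block DEF)
-/

open Filter Topology Module Function Metric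
open scoped ContDiff

namespace Vale.Agent.P287T.Df

variable {E F G T : Type*} [NormedAddCommGroup E] [NormedSpace ℂ E] [NormedAddCommGroup F]
  [NormedSpace ℂ F] [NormedAddCommGroup G] [NormedSpace ℂ G] [NormedAddCommGroup T]
  [NormedSpace ℂ T]

/-- the analytic implicit function theorem -/
theorem abs_ift [CompleteSpace E] [CompleteSpace F] [CompleteSpace G] {Φ : E × F → G} {u : E × F}
    (h : AnalyticAt ℂ Φ u) {D : F →L[ℂ] G} (hD : HasFDerivAt (fun y => Φ (u.1, y)) D u.2)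
    (hb : D.IsInvertible) : ∃ ψ : E → F, AnalyticAt ℂ ψ u.1 ∧ ψ u.1 = u.2 ∧
      (∀ᶠ x in 𝓝 u.1, Φ (x, ψ x) = Φ u) ∧ ∀ᶠ v in 𝓝 u, Φ v = Φ u → ψ v.1 = v.2 := by
  have h1 : ContDiffAt ℂ ω Φ u := h.contDiffAt
  have h2 : fderiv ℂ Φ u ∘L .inr ℂ E F = D :=
    (h.differentiableAt.hasFDerivAt.comp u.2 (hasFDerivAt_prodMk_right u.1 u.2)).unique hD
  have h3 : (fderiv ℂ Φ u ∘L .inr ℂ E F).IsInvertible := h2 ▸ hb
  have h4 : (ω : WithTop ℕ∞) ≠ 0 := by simp
  exact ⟨h1.implicitFunction h4 h3,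
    (h1.contDiffAt_implicitFunction h4 h3).analyticAt,
    h1.implicitFunction_apply_self h4 h3, h1.eventually_apply_implicitFunction h4 h3,
    (h1.eventually_apply_eq_iff_implicitFunction h4 h3).mono fun _ k => k.1⟩

/-- the rank is lower semicontinuous -/
theorem abs_rank {X : Type*} [TopologicalSpace X] [FiniteDimensional ℂ E] {A : X → E →L[ℂ] F}
    {x0 : X} (h : ContinuousAt A x0) :
    ∀ᶠ x in 𝓝 x0, finrank ℂ (A x0).range ≤ finrank ℂ (A x).range := by
  have h1 := (isOpen_setOfPred_nat_le_rank (𝕜 := ℂ) (E := E) (F := F)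
    (finrank ℂ (A x0).range)).mem_nhds (x := A x0) (finrank_eq_rank ℂ _).le
  filter_upwards [h h1] with x hx
  have h2 : ((finrank ℂ (A x0).range : ℕ) : Cardinal) ≤ (finrank ℂ (A x).range : ℕ) := by
    rw [finrank_eq_rank ℂ (A x).range]
    exact hx
  exact_mod_cast h2

theorem abs_inj {X : Type*} [TopologicalSpace X] [FiniteDimensional ℂ E] {A : X → E →L[ℂ] F}
    {x0 : X} (h : ContinuousAt A x0) (h0 : ∀ v, A x0 v = 0 → v = 0) :
    ∀ᶠ x in 𝓝 x0, ∀ v, A x v = 0 → v = 0 := by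
  have h1 := (ContinuousLinearMap.isOpen_injective (𝕜 := ℂ) (E := E) (F := F)).mem_nhds
    (x := A x0) ((injective_iff_map_eq_zero _).2 h0)
  filter_upwards [h h1] with x hx
  exact (injective_iff_map_eq_zero _).1 hx

/-- a nonempty analytic hypersurface germ inside a smooth hypersurface is the whole of it -/
theorem abs_hur {o f : E → ℂ} {x0 : E} (ho : AnalyticAt ℂ o x0) (h0 : o x0 = 0)
    (hf : AnalyticAt ℂ f x0) (hd : fderiv ℂ f x0 ≠ 0) (h : ∀ᶠ x in 𝓝 x0, o x = 0 → f x = 0) :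
    ∀ᶠ x in 𝓝 x0, f x = 0 → o x = 0 := by
  obtain ⟨τ, hτ⟩ : ∃ τ, fderiv ℂ f x0 τ ≠ 0 := by
    by_contra k
    exact hd (ContinuousLinearMap.ext fun τ => not_not.1 fun k' => k ⟨τ, k'⟩)
  have hc : Continuous fun z : E × ℂ => z.1 + z.2 • τ := by fun_prop
  have ht : Tendsto (fun z : E × ℂ => z.1 + z.2 • τ) (𝓝 (x0, 0)) (𝓝 x0) :=
    hc.tendsto' _ _ (by simp)
  have hp : 0 < ‖fderiv ℂ f x0 τ‖ := norm_pos_iff.2 hτ
  have hq : 0 < ‖τ‖ + 1 := by positivity
  have hA : ∀ᶠ z : E × ℂ in 𝓝 (x0, 0), f (z.1 + z.2 • τ) = f z.1 → z.2 = 0 := by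
    have h1 := hf.hasStrictFDerivAt.isLittleO.bound (div_pos hp hq)
    filter_upwards [(ht.prodMk_nhds (continuous_fst.tendsto (x0, (0 : ℂ)))).eventually h1] with z hz e
    by_contra k
    have h2 : 0 < ‖z.2‖ := norm_pos_iff.2 k
    simp only [e, sub_self, add_sub_cancel_left, zero_sub, norm_neg, map_smul, norm_smul] at hz
    rw [div_mul_eq_mul_div, le_div_iff₀ hq] at hz
    nlinarith [mul_pos h2 hp]
  obtain ⟨r, hr, hR⟩ := Metric.eventually_nhds_iff.1
    (hA.and ((ht.eventually ho.eventually_analyticAt).and (ht.eventually h)))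
  have hr2 : 0 < r / 2 := half_pos hr
  have hin : ∀ x, dist x x0 < r → ∀ l ∈ closedBall (0 : ℂ) (r / 2),
      dist (x, l) (x0, (0 : ℂ)) < r := fun x hx l hl => by
    rw [Prod.dist_eq]
    exact max_lt hx ((mem_closedBall.1 hl).trans_lt (half_lt_self hr))
  have hs : ∀ᶠ x in 𝓝 x0, ∀ l ∈ sphere (0 : ℂ) (r / 2), ‖o x‖ < ‖o (x + l • τ)‖ := by
    refine (isCompact_sphere _ _).eventually_forall_of_forall_eventually fun l hl => ?_
    obtain ⟨a, b, c⟩ := hR (hin x0 (by simpa using hr) l (sphere_subset_closedBall hl))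
    have h1 : o (x0 + l • τ) ≠ 0 := fun e => by
      have h2 : l = 0 := a ((c e).trans (h.self_of_nhds h0).symm)
      rw [h2, mem_sphere, dist_self] at hl
      exact hr2.ne hl
    refine ContinuousAt.eventually_lt (f := fun z : E × ℂ => ‖o z.1‖)
      (g := fun z : E × ℂ => ‖o (z.1 + z.2 • τ)‖) ?_ ?_ ?_
    · exact (ho.continuousAt.comp (f := Prod.fst) (x := (x0, l)) continuousAt_fst).norm
    · exact (b.continuousAt.comp (f := fun z : E × ℂ => z.1 + z.2 • τ) (x := (x0, l))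
        hc.continuousAt).norm
    · simpa [h0] using h1
  filter_upwards [hs, ball_mem_nhds x0 hr] with x hx hb e
  by_contra k
  have h1 : ∀ l ∈ closedBall (0 : ℂ) (r / 2), AnalyticAt ℂ (fun l : ℂ => (o (x + l • τ))⁻¹) l := by
    intro l hl
    obtain ⟨a, b, c⟩ := hR (hin x hb l hl)
    refine (b.comp (f := fun l : ℂ => x + l • τ) (by fun_prop)).inv fun e' => k ?_
    have h2 : l = 0 := a ((c e').trans e.symm)
    simpa [h2] using e'
  have h2 : DiffContOnCl ℂ (fun l : ℂ => (o (x + l • τ))⁻¹) (ball 0 (r / 2)) := by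
    refine DifferentiableOn.diffContOnCl ?_
    rw [closure_ball _ hr2.ne']
    exact fun l hl => (h1 l hl).differentiableAt.differentiableWithinAt
  obtain ⟨z, hz, hm⟩ := Complex.exists_mem_frontier_isMaxOn_norm isBounded_ball
    (nonempty_ball.2 hr2) h2
  rw [frontier_ball _ hr2.ne'] at hz
  have h3 : ‖(o (x + (0 : ℂ) • τ))⁻¹‖ ≤ ‖(o (x + z • τ))⁻¹‖ :=
    hm (subset_closure (mem_ball_self hr2))
  rw [zero_smul, add_zero, norm_inv, norm_inv] at h3
  exact (inv_strictAnti₀ (norm_pos_iff.2 k) (hx z hz)).not_ge h3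

/-- a generalised inverse adapted to a projection onto the kernel -/
theorem abs_ginv [FiniteDimensional ℂ F] (δ : E →L[ℂ] F) (π : E →L[ℂ] E) (hπ : ∀ v, δ (π v) = 0)
    (hπ' : ∀ v, δ v = 0 → π v = v) :
    ∃ κ : F →L[ℂ] E, (∀ v, κ (δ v) = v - π v) ∧ ∀ y, π (κ y) = 0 := by
  let ρ : E →ₗ[ℂ] E := LinearMap.id - (π : E →ₗ[ℂ] E)
  have hρ : ∀ v, ρ v = v - π v := fun _ => rfl
  have h1 : LinearMap.ker (δ : E →ₗ[ℂ] F) ≤ LinearMap.ker ρ := fun v hv => by
    rw [LinearMap.mem_ker, hρ, hπ' v hv, sub_self]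
  obtain ⟨κ, hκ⟩ := LinearMap.exists_extend
    ((LinearMap.ker (δ : E →ₗ[ℂ] F)).liftQ ρ h1 ∘ₗ
      (δ : E →ₗ[ℂ] F).quotKerEquivRange.symm.toLinearMap)
  have h2 : ∀ v, κ (δ v) = v - π v := fun v => by
    have h3 := LinearMap.congr_fun hκ ⟨δ v, v, rfl⟩
    refine h3.trans ?_
    have h4 := (δ : E →ₗ[ℂ] F).quotKerEquivRange_symm_apply_image v ⟨v, rfl⟩
    exact congrArg ((LinearMap.ker (δ : E →ₗ[ℂ] F)).liftQ ρ h1) h4
  have h3 : ∀ v, π (v - π v) = 0 := fun v => by rw [map_sub, hπ' _ (hπ v), sub_self]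
  refine ⟨LinearMap.toContinuousLinearMap (ρ ∘ₗ κ), fun v => ?_, fun y => h3 _⟩
  change ρ (κ (δ v)) = _
  rw [h2, hρ, h3, sub_zero]

/-- the Kuranishi retraction when the obstruction space has dimension at most one and the
solutions are confined to a smooth hypersurface of the parameter space -/
theorem abs_kur [FiniteDimensional ℂ T] [FiniteDimensional ℂ E] [FiniteDimensional ℂ F]
    {μ : T × E → F} {u : T × E} (hμ : AnalyticAt ℂ μ u) (h0 : μ u = 0)
    {β : T × E → F →L[ℂ] G} (hβ : ContinuousAt β u) (hB : ∀ᶠ x in 𝓝 u, β x (μ x) = 0)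
    {δ : E →L[ℂ] F} (hδ : HasFDerivAt (fun y => μ (u.1, y)) δ u.2) {ε : F}
    (hε : ∀ y, β u y = 0 → ∃ (c : ℂ) (v : E), y = δ v + c • ε) {π : E →L[ℂ] E}
    (hπ : ∀ v, δ (π v) = 0) (hπ' : ∀ v, δ v = 0 → π v = v) {f : T → ℂ}
    (hf : AnalyticAt ℂ f u.1) (hf' : fderiv ℂ f u.1 ≠ 0)
    (hc : ∀ᶠ x in 𝓝 u, μ x = 0 → f x.1 = 0) :
    ∃ σ : T × E → E, AnalyticAt ℂ σ u ∧ σ u = u.2 ∧ ∀ᶠ x in 𝓝 u, π (σ x) = π x.2 ∧
      (f x.1 = 0 → μ (x.1, σ x) = 0) ∧ (μ x = 0 → σ x = x.2) := by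
  have : CompleteSpace T := FiniteDimensional.complete ℂ T
  have : CompleteSpace E := FiniteDimensional.complete ℂ E
  have : CompleteSpace F := FiniteDimensional.complete ℂ F
  obtain ⟨κ, hκ, hκ'⟩ := abs_ginv δ π hπ hπ'
  obtain ⟨lam, hl⟩ : ∃ lam : F →L[ℂ] ℂ, lam (ε - δ (κ ε)) = 0 → ε - δ (κ ε) = 0 := by
    by_cases k : ε - δ (κ ε) = 0
    · exact ⟨0, fun _ => k⟩
    · obtain ⟨lam, hl⟩ := SeparatingDual.exists_ne_zero (R := ℂ) k
      exact ⟨lam, fun k' => (hl k').elim⟩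
  have hi : ∀ᶠ x in 𝓝 u, ∀ y, (κ.prod lam).prod (β x) y = 0 → y = 0 := by
    refine abs_inj (A := fun x => (κ.prod lam).prod (β x)) ?_ fun y hy => ?_
    · exact ((ContinuousLinearMap.prodₗᵢ ℂ).continuous.continuousAt).comp
        (continuousAt_const.prodMk hβ)
    · obtain ⟨⟨h1, h2⟩, h3⟩ : (κ y = 0 ∧ lam y = 0) ∧ β u y = 0 := by
        simpa [Prod.ext_iff] using hy
      obtain ⟨c, v, e⟩ := hε y h3
      have h4 : y = δ (v + c • κ ε) + c • (ε - δ (κ ε)) := by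
        rw [e, map_add, map_smul, smul_sub]
        abel
      have h5 : v + c • κ ε - π (v + c • κ ε) = 0 := by
        rw [h4, map_add, hκ, map_smul, map_sub, hκ, hκ', sub_zero, sub_self, smul_zero,
          add_zero] at h1
        exact h1
      rw [sub_eq_zero.1 h5, hπ, zero_add] at h4
      rw [h4, map_smul, smul_eq_zero] at h2
      rw [h4]
      rcases h2 with k | k
      · rw [k, zero_smul]
      · rw [hl k, smul_zero]
  have hm : AnalyticAt ℂ (fun z : (T × E) × E => μ (z.1.1, z.2)) (u, u.2) :=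
    AnalyticAt.comp (g := μ) (f := fun z : (T × E) × E => (z.1.1, z.2)) (x := (u, u.2)) hμ
      ((analyticAt_fst.comp analyticAt_fst).prod analyticAt_snd)
  have hΦ : AnalyticAt ℂ (fun z : (T × E) × E => π (z.2 - z.1.2) + κ (μ (z.1.1, z.2))) (u, u.2) :=
    ((π.analyticAt _).comp (analyticAt_snd.sub (analyticAt_snd.comp analyticAt_fst))).add
      ((κ.analyticAt _).comp hm)
  have hD : HasFDerivAt (fun y => π (y - u.2) + κ (μ (u.1, y))) (ContinuousLinearMap.id ℂ E) u.2 := by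
    have h1 := (π.hasFDerivAt.comp u.2 ((hasFDerivAt_id u.2).sub_const u.2)).add
      (κ.hasFDerivAt.comp u.2 hδ)
    refine h1.congr_fderiv (ContinuousLinearMap.ext fun v => ?_)
    simp [hκ]
  obtain ⟨σ, hσ, hσ0, hs, hu⟩ := abs_ift hΦ hD ⟨ContinuousLinearEquiv.refl ℂ E, rfl⟩
  dsimp only at hσ hσ0 hs hu
  have hz : π (u.2 - u.2) + κ (μ (u.1, u.2)) = 0 := by
    rw [sub_self, map_zero, show (u.1, u.2) = u from rfl, h0, map_zero, add_zero]
  rw [hz] at hs hu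
  have hq : AnalyticAt ℂ (fun x : T × E => (x.1, σ x)) u := analyticAt_fst.prod hσ
  have hq0 : (u.1, σ u) = u := by rw [hσ0]
  have ht : Tendsto (fun x : T × E => (x.1, σ x)) (𝓝 u) (𝓝 u) := by
    have := hq.continuousAt.tendsto
    rwa [hq0] at this
  have h1 : ∀ᶠ x in 𝓝 u, π (σ x) = π x.2 ∧ κ (μ (x.1, σ x)) = 0 := by
    filter_upwards [hs] with x hx
    have h2 := congrArg π hx
    rw [map_add, hκ', hπ' _ (hπ _), add_zero, map_zero] at h2
    rw [h2, zero_add] at hx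
    exact ⟨by rwa [map_sub, sub_eq_zero] at h2, hx⟩
  have h2 : ∀ᶠ x in 𝓝 u, lam (μ (x.1, σ x)) = 0 → μ (x.1, σ x) = 0 := by
    filter_upwards [h1, ht.eventually hi, ht.eventually hB] with x a b c e
    exact b _ (Prod.ext (Prod.ext a.2 e) c)
  have h3 : ∀ᶠ x in 𝓝 u, f x.1 = 0 → lam (μ (x.1, σ x)) = 0 := by
    refine abs_hur (o := fun x => lam (μ (x.1, σ x))) (f := fun x : T × E => f x.1) ?_ ?_ ?_ ?_ ?_
    · exact (lam.analyticAt _).comp (AnalyticAt.comp (g := μ) (hq0.symm ▸ hμ) hq)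
    · rw [hq0, h0, map_zero]
    · exact hf.comp analyticAt_fst
    · exact fun k => hf' (ContinuousLinearMap.ext fun w => DFunLike.congr_fun
        ((hf.differentiableAt.hasFDerivAt.comp u hasFDerivAt_fst).fderiv.symm.trans k) (w, 0))
    · filter_upwards [h2, ht.eventually hc] with x a b e
      exact b (a e)
  have h4 : Tendsto (fun x : T × E => (x, x.2)) (𝓝 u) (𝓝 (u, u.2)) :=
    (continuous_id.prodMk continuous_snd).tendsto u
  refine ⟨σ, hσ, hσ0, ?_⟩
  filter_upwards [h1, h2, h3, h4.eventually hu] with x a b c d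
  refine ⟨a.1, fun e => b (c e), fun e => d ?_⟩
  rw [sub_self, map_zero, show (x.1, x.2) = x from rfl, e, map_zero, add_zero]

end Vale.Agent.P287T.Df
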