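import Mathlib.Geometry.Manifold.IsManifold.Basic
import Mathlib.Analysis.Complex.Basic
import Mathlib.Analysis.Calculus.ContDiff.Basic

/-!
# A complex manifold from local parametrisations
-/

open Filter Topology Function Set
open scoped Manifold ContDiff

namespace Vale.Agent.P287T.Df

variable {M E : Type*} [NormedAddCommGroup E] [NormedSpace ℂ E]

variable (M E) in
/-- injective local parametrisations with holomorphic transition maps -/
structure Atl where
  σ : M → E → M
  U : M → Set E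
  op : ∀ x, IsOpen (U x)
  z0 : ∀ x, 0 ∈ U x
  s0 : ∀ x, σ x 0 = x
  inj : ∀ x, InjOn (σ x) (U x)
  tr : ∀ x x', ∀ z ∈ U x, ∀ z' ∈ U x', σ x z = σ x' z' →
    ∃ ζ : E → E, AnalyticAt ℂ ζ z ∧ ζ z = z' ∧ ∀ᶠ w in 𝓝 z, σ x' (ζ w) = σ x w

namespace Atl

variable (A : Atl M E)

/-- the topology -/
@[reducible] def top : TopologicalSpace M where
  IsOpen V := ∀ x, IsOpen (A.U x ∩ A.σ x ⁻¹' V)
  isOpen_univ x := by simpa using A.op x
  isOpen_inter V V' h h' x := by
    rw [preimage_inter, inter_inter_distrib_left]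
    exact (h x).inter (h' x)
  isOpen_sUnion S h x := by
    rw [preimage_sUnion, inter_iUnion₂]
    exact isOpen_biUnion fun V hV => h V hV x

theorem open_image (x : M) {V : Set E} (hV : IsOpen V) (h : V ⊆ A.U x) :
    IsOpen[A.top] (A.σ x '' V) := by
  intro x'
  refine isOpen_iff_mem_nhds.2 ?_
  rintro z' ⟨hz', z, hz, e⟩
  obtain ⟨ζ, a, e1, e2⟩ := A.tr x' x z' hz' z (h hz) e.symm
  filter_upwards [(A.op x').mem_nhds hz', e2,
    a.continuousAt.eventually (hV.mem_nhds (e1.symm ▸ hz))] with w a1 a2 a3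
  exact ⟨a1, ζ w, a3, a2⟩

/-- the parametrisation as a partial homeomorphism -/
noncomputable def par (x : M) : @OpenPartialHomeomorph E M _ A.top :=
  letI := A.top
  OpenPartialHomeomorph.ofContinuousOpenRestrict ((A.inj x).toPartialEquiv _ _)
    ((continuousOn_open_iff (A.op x)).2 fun _ h => h x)
    (fun V hV => (image_image (A.σ x) Subtype.val V) ▸
      A.open_image x ((A.op x).isOpenMap_subtype_val V hV) (Subtype.coe_image_subset _ _))
    (A.op x)

/-- the charts -/
@[reducible] noncomputable def cs : @ChartedSpace E _ M A.top :=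
  letI := A.top
  { atlas := range fun x => (A.par x).symm
    chartAt := fun x => (A.par x).symm
    mem_chart_source := fun x => ⟨0, A.z0 x, A.s0 x⟩
    chart_mem_atlas := fun x => ⟨x, rfl⟩ }

theorem mfd [CompleteSpace E] : @IsManifold ℂ _ E _ _ E _ 𝓘(ℂ, E) ω M A.top A.cs := by
  let := A.top
  let := A.cs
  refine isManifold_of_contDiffOn _ _ _ ?_
  rintro _ _ ⟨x, rfl⟩ ⟨x', rfl⟩ z hz
  simp only [modelWithCornersSelf_coe, modelWithCornersSelf_coe_symm, comp_id, id_comp,
    preimage_id, range_id, inter_univ] at hz ⊢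
  obtain ⟨hz, z', hz', e⟩ := hz
  obtain ⟨ζ, a, e1, e2⟩ := A.tr x x' z hz z' hz' e.symm
  refine (a.congr ?_).contDiffAt.contDiffWithinAt
  filter_upwards [e2, a.continuousAt.eventually ((A.op x').mem_nhds (e1.symm ▸ hz'))] with w a2 a3
  exact ((A.par x').left_inv a3).symm.trans (congrArg (A.par x').symm a2)

/-- the manifold defined by local parametrisations -/
theorem exists_mfd [CompleteSpace E] :
    ∃ (_ : TopologicalSpace M) (_ : ChartedSpace E M), IsManifold 𝓘(ℂ, E) ω M ∧
    ∀ x, ⇑(chartAt E x).symm = A.σ x ∧ (chartAt E x).target = A.U x ∧ chartAt E x x = 0 := by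
  let := A.top
  refine ⟨A.top, A.cs, A.mfd, fun x => ⟨rfl, rfl, ?_⟩⟩
  exact (congrArg (A.par x).symm (A.s0 x).symm).trans ((A.par x).left_inv (A.z0 x))

end Atl

omit [NormedSpace ℂ E]

variable [TopologicalSpace M] [ChartedSpace E M]

theorem atl_t2 (h : ∀ x x' : M, x ≠ x' → ∀ᶠ z in 𝓝 (chartAt E x x, chartAt E x' x'),
    (chartAt E x).symm z.1 ≠ (chartAt E x').symm z.2) : T2Space M := by
  refine t2_iff_isClosed_diagonal.2 (isOpen_compl_iff.1 (isOpen_iff_mem_nhds.2 fun y hy => ?_))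
  have c1 := (chartAt E y.1).continuousAt (mem_chart_source E y.1)
  have c2 := (chartAt E y.2).continuousAt (mem_chart_source E y.2)
  filter_upwards [(c1.prodMap c2).eventually (h y.1 y.2 hy),
    continuousAt_fst.eventually (chart_source_mem_nhds E y.1),
    continuousAt_snd.eventually (chart_source_mem_nhds E y.2)] with w a1 a2 a3
  rwa [Prod.map_fst, Prod.map_snd, (chartAt E y.1).left_inv a2, (chartAt E y.2).left_inv a3] at a1

theorem atl_cpt (h : ∀ 𝒰 : Ultrafilter M, ∃ (x : M) (ζ : M → E), Tendsto ζ 𝒰 (𝓝 (chartAt E x x)) ∧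
    ∀ᶠ y in (𝒰 : Filter M), (chartAt E x).symm (ζ y) = y) : CompactSpace M := by
  refine ⟨isCompact_iff_ultrafilter_le_nhds.2 fun 𝒰 _ => ?_⟩
  obtain ⟨x, ζ, h1, h2⟩ := h 𝒰
  exact ⟨x, trivial, (((chartAt E x).tendsto_symm (mem_chart_source E x)).comp h1).congr' h2⟩

end Vale.Agent.P287T.Df
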