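import Mathlib.Analysis.Calculus.ImplicitContDiff
import Mathlib.Analysis.Normed.Module.FiniteDimension
import Mathlib.Analysis.Calculus.ContDiff.Basic
import Mathlib.Analysis.Calculus.ContDiff.Operations
import Mathlib.Analysis.Complex.Basic
import Mathlib.Analysis.Normed.Operator.Prod
import Mathlib.Analysis.Analytic.Constructions

/-!
# Families of finite dimensional complexes: the locus where `H⁰` survives is a graph
-/

open Filter Topology Function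

namespace Vale.Agent.P287T.Df

section lin

variable {Y E F G : Type*} [TopologicalSpace Y] [NormedAddCommGroup E] [NormedSpace ℂ E]
  [NormedAddCommGroup F] [NormedSpace ℂ F] [NormedAddCommGroup G] [NormedSpace ℂ G]
  [FiniteDimensional ℂ E] {y₀ : Y}

theorem vs_inj {T : Y → E →L[ℂ] F} (c : ContinuousAt T y₀) (h : Injective (T y₀)) :
    ∀ᶠ y in 𝓝 y₀, Injective (T y) :=
  c.eventually (ContinuousLinearMap.isOpen_injective.mem_nhds h)

theorem vs_low {T : Y → E →L[ℂ] F} (c : ContinuousAt T y₀) (h : Injective (T y₀)) :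
    ∃ a : ℝ, 0 < a ∧ ∀ᶠ y in 𝓝 y₀, ∀ k, ‖k‖ ≤ a * ‖T y k‖ := by
  obtain ⟨K, K0, hK⟩ := (T y₀).toLinearMap.exists_antilipschitzWith (LinearMap.ker_eq_bot.2 h)
  have K0' : (0 : ℝ) < K := K0
  refine ⟨2 * K, by positivity, ?_⟩
  filter_upwards [Metric.tendsto_nhds.1 c (1 / (2 * K)) (by positivity)] with y hy k
  have h1 : ‖k‖ ≤ K * ‖T y₀ k‖ := ZeroHomClass.bound_of_antilipschitz _ hK k
  have h2 : ‖T y₀ k‖ ≤ ‖T y k‖ + 1 / (2 * K) * ‖k‖ := by
    have e : T y₀ k = T y k - (T y - T y₀) k := by simp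
    rw [e, dist_eq_norm] at *
    refine (norm_sub_le _ _).trans (add_le_add_right ?_ _)
    exact ((T y - T y₀).le_opNorm k).trans (mul_le_mul_of_nonneg_right hy.le (norm_nonneg _))
  have h3 : (K : ℝ) * (1 / (2 * K) * ‖k‖) = ‖k‖ / 2 := by field_simp
  nlinarith [mul_le_mul_of_nonneg_left h2 K0'.le]

omit [FiniteDimensional ℂ E] in
theorem vs_surj [FiniteDimensional ℂ F] {T : Y → E →L[ℂ] F} (c : ContinuousAt T y₀)
    (h : Surjective (T y₀)) : ∀ᶠ y in 𝓝 y₀, Surjective (T y) := by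
  obtain ⟨r, hr⟩ := (T y₀).toLinearMap.exists_rightInverse_of_surjective
    (LinearMap.range_eq_top.2 h)
  have h1 : Injective ((T y₀).comp (LinearMap.toContinuousLinearMap r)) := fun a b e => by
    have := fun a => LinearMap.congr_fun hr a
    simpa using (this a).symm.trans (e.trans (this b))
  filter_upwards [vs_inj (c.clm_comp continuousAt_const) h1] with y hy
  have h2 : Surjective ((T y).comp (LinearMap.toContinuousLinearMap r)).toLinearMap :=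
    LinearMap.injective_iff_surjective.1 hy
  exact Surjective.of_comp (g := LinearMap.toContinuousLinearMap r) h2

omit [FiniteDimensional ℂ E] in
theorem vs_injK {T : E →L[ℂ] F} {K : Submodule ℂ E}
    (h : IsCompl (LinearMap.ker T.toLinearMap) K) : Injective (T.comp K.subtypeL) :=
  (injective_iff_map_eq_zero _).2 fun k hk =>
    Subtype.ext ((Submodule.disjoint_def.1 h.disjoint) k hk k.2)

omit [FiniteDimensional ℂ E] in
/-- exactness is an open condition, and the image is then the image of a fixed complement -/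
theorem vs_exact [FiniteDimensional ℂ F] {a : Y → E →L[ℂ] F} {b : Y → F →L[ℂ] G}
    (ca : ContinuousAt a y₀) (cb : ContinuousAt b y₀) (h : ∀ v, b y₀ v = 0 → ∃ u, v = a y₀ u)
    {K : Submodule ℂ F} (hK : IsCompl (LinearMap.ker (b y₀).toLinearMap) K) :
    ∀ᶠ y in 𝓝 y₀, (∀ u, b y (a y u) = 0) →
      (∀ v, ∃ k : K, b y v = b y k) ∧ ∀ v, b y v = 0 → ∃ u, v = a y u := by
  have h1 : Surjective ((a y₀).coprod K.subtypeL) := fun v => by
    obtain ⟨w, hw, k, hk, e⟩ := Submodule.mem_sup.1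
      (hK.sup_eq_top.symm ▸ Submodule.mem_top : v ∈ LinearMap.ker (b y₀).toLinearMap ⊔ K)
    obtain ⟨u, rfl⟩ := h w hw
    exact ⟨(u, ⟨k, hk⟩), e⟩
  have c1 : ContinuousAt (fun y => (a y).coprod K.subtypeL) y₀ := by
    have e : (fun y => (a y).coprod K.subtypeL) = fun y =>
        (a y).comp (.fst ℂ E K) + K.subtypeL.comp (.snd ℂ E K) :=
      funext fun y => (ContinuousLinearMap.comp_fst_add_comp_snd _ _).symm
    rw [e]
    exact (ca.clm_comp continuousAt_const).add continuousAt_const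
  filter_upwards [vs_surj c1 h1, vs_inj (cb.clm_comp continuousAt_const) (vs_injK hK)]
    with y h2 h3 h4
  have h5 : ∀ v, ∃ (u : E) (k : K), v = a y u + k ∧ b y v = b y k := fun v => by
    obtain ⟨⟨u, k⟩, rfl⟩ := h2 v
    exact ⟨u, k, rfl, by simp [h4]⟩
  refine ⟨fun v => (h5 v).elim fun _ h => h.imp fun _ h => h.2, fun v hv => ?_⟩
  obtain ⟨u, k, e, e'⟩ := h5 v
  have : k = 0 := h3 ((e'.symm.trans hv).trans (map_zero _).symm)
  exact ⟨u, by simpa [this] using e⟩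

omit [FiniteDimensional ℂ E] in
/-- a class that is not a boundary stays so -/
theorem vs_nz [FiniteDimensional ℂ F] {a : Y → E →L[ℂ] F} {b : Y → F →L[ℂ] G} {φ : Y → G}
    (ca : ContinuousAt a y₀) (cb : ContinuousAt b y₀) (cφ : ContinuousAt φ y₀)
    (h : ∀ v, b y₀ v = 0 → ∃ u, v = a y₀ u) (hn : ∀ v, φ y₀ ≠ b y₀ v) :
    ∀ᶠ y in 𝓝 y₀, (∀ u, b y (a y u) = 0) → ∀ v, φ y ≠ b y v := by
  obtain ⟨K, hK⟩ := (LinearMap.ker (b y₀).toLinearMap).exists_isCompl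
  have c1 : ContinuousAt (fun y => (ContinuousLinearMap.toSpanSingleton ℂ (φ y)).comp
      (.fst ℂ ℂ K) + ((b y).comp K.subtypeL).comp (.snd ℂ ℂ K)) y₀ :=
    (ContinuousAt.clm_comp ((ContinuousLinearMap.smulRightL ℂ ℂ G
      (.id ℂ ℂ)).continuous.continuousAt.comp cφ) continuousAt_const).add
      ((cb.clm_comp continuousAt_const).clm_comp continuousAt_const)
  have i1 := vs_inj c1 ((injective_iff_map_eq_zero _).2 fun u hu => by
    have e : u.1 • φ y₀ + b y₀ u.2 = 0 := hu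
    have e1 : u.1 = 0 := by
      by_contra n
      refine hn (-(u.1⁻¹ • (u.2 : F))) ?_
      rw [map_neg, map_smul, eq_neg_of_add_eq_zero_right e, smul_neg, neg_neg, inv_smul_smul₀ n]
    refine Prod.ext e1 (vs_injK hK ?_)
    simpa [e1] using e)
  filter_upwards [i1, vs_exact ca cb h hK] with y a2 a4 ok v e
  obtain ⟨k, hk⟩ := (a4 ok).1 v
  have := a2 (a₁ := (1, -k)) (a₂ := 0) (by simp [e, hk])
  simp at this

omit [FiniteDimensional ℂ E] in
theorem vs_dec [FiniteDimensional ℂ F] {b : Y → E →L[ℂ] F} {c : F →L[ℂ] G} {φ₀ : F}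
    (cb : ContinuousAt b y₀) (hs : ∀ ψ, c ψ = 0 → ∃ (t : ℂ) (v : E), ψ = t • φ₀ + b y₀ v)
    {K : Submodule ℂ F} (hK : IsCompl (LinearMap.ker c.toLinearMap) K) :
    ∀ᶠ y in 𝓝 y₀, ∀ ψ, ∃ (v : E) (t : ℂ) (k : K), ψ = b y v + (t • φ₀ + k) := by
  let R : ℂ × K →L[ℂ] F := (ContinuousLinearMap.toSpanSingleton ℂ φ₀).coprod K.subtypeL
  have c1 : ContinuousAt (fun y => (b y).comp (.fst ℂ E (ℂ × K)) + R.comp (.snd ℂ _ _)) y₀ :=
    (cb.clm_comp continuousAt_const).add continuousAt_const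
  refine (vs_surj c1 fun ψ => ?_).mono fun y hy ψ => ?_
  · obtain ⟨w, hw, k, hk, rfl⟩ := Submodule.mem_sup.1
      (hK.sup_eq_top.symm ▸ Submodule.mem_top : ψ ∈ LinearMap.ker c.toLinearMap ⊔ K)
    obtain ⟨t, v, rfl⟩ := hs w hw
    refine ⟨(v, t, ⟨k, hk⟩), ?_⟩
    change b y₀ v + (t • φ₀ + k) = _
    abel
  · obtain ⟨u, rfl⟩ := hy ψ
    exact ⟨u.1, u.2.1, u.2.2, rfl⟩

end lin

variable {X Z A B C D E : Type*} [NormedAddCommGroup X] [NormedSpace ℂ X]
  [NormedAddCommGroup Z] [NormedSpace ℂ Z] [NormedAddCommGroup A] [NormedSpace ℂ A]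
  [NormedAddCommGroup B] [NormedSpace ℂ B] [NormedAddCommGroup C] [NormedSpace ℂ C]
  [NormedAddCommGroup D] [NormedSpace ℂ D] [NormedAddCommGroup E] [NormedSpace ℂ E]

theorem vs_core [CompleteSpace X] [FiniteDimensional ℂ Z] [FiniteDimensional ℂ C]
    [FiniteDimensional ℂ D] {c : X × Z → C →L[ℂ] D} {d : X × Z → D →L[ℂ] E} {x₀ : X} {z₀ : Z}
    {φ₀ : C} {ks : Z →L[ℂ] D} (cc : AnalyticAt ℂ c (x₀, z₀)) (cd : ContinuousAt d (x₀, z₀))
    (hks : HasFDerivAt (fun z => c (x₀, z) φ₀) ks z₀) (h0 : c (x₀, z₀) φ₀ = 0)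
    (h1 : ∀ w, d (x₀, z₀) w = 0 ↔ ∃ ζ ψ, w = ks ζ + c (x₀, z₀) ψ)
    (hi : ∀ ζ ψ, ks ζ = c (x₀, z₀) ψ → ζ = 0) {K : Submodule ℂ C}
    (hc : IsCompl (LinearMap.ker (c (x₀, z₀)).toLinearMap) K) :
    ∃ g : X → Z × K, AnalyticAt ℂ g x₀ ∧ g x₀ = (z₀, 0) ∧
      (∀ᶠ x in 𝓝 x₀, (∀ u, d (x, (g x).1) (c (x, (g x).1) u) = 0) →
        c (x, (g x).1) (φ₀ + (g x).2) = 0) ∧
      ∀ᶠ v : X × Z × K in 𝓝 (x₀, z₀, 0), c (v.1, v.2.1) (φ₀ + v.2.2) = 0 → g v.1 = v.2 := by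
  have := FiniteDimensional.complete ℂ Z
  have := FiniteDimensional.complete ℂ C
  have := FiniteDimensional.complete ℂ D
  have := FiniteDimensional.complete ℂ K
  obtain ⟨Kd, hd⟩ := (LinearMap.ker (d (x₀, z₀)).toLinearMap).exists_isCompl
  have id := vs_inj (cd.clm_comp continuousAt_const) (vs_injK hd)
  set Z1 := LinearMap.ker (d (x₀, z₀)).toLinearMap
  let pr : D →L[ℂ] Z1 := LinearMap.toContinuousLinearMap (Z1.projectionOnto Kd hd)
  have pr1 : ∀ w (h : w ∈ Z1), pr w = ⟨w, h⟩ := fun w h =>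
    Submodule.projectionOnto_apply_left hd ⟨w, h⟩
  have pr0 : ∀ w, pr w = 0 → w ∈ Kd := fun w h =>
    (Submodule.projectionOnto_apply_eq_zero_iff hd).1 h
  let f : X × Z × K → Z1 := fun v => pr (c (v.1, v.2.1) (φ₀ + v.2.2))
  have e0 : AnalyticAt ℂ (fun v : X × Z × K => c (v.1, v.2.1)) (x₀, z₀, 0) :=
    AnalyticAt.comp_of_eq cc (analyticAt_fst.prod (analyticAt_fst.comp analyticAt_snd)) rfl
  have hf : ContDiffAt ℂ ⊤ f (x₀, z₀, 0) :=
    pr.contDiff.contDiffAt.comp _ (e0.contDiffAt.clm_apply (contDiffAt_const.add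
      (K.subtypeL.contDiff.contDiffAt.comp _ (contDiffAt_snd.comp _ contDiffAt_snd))))
  let L : Z × K →L[ℂ] D := ks.coprod ((c (x₀, z₀)).comp K.subtypeL)
  have hL : HasFDerivAt (fun u : Z × K => c (x₀, u.1) (φ₀ + u.2)) L (z₀, 0) := by
    have a1 : DifferentiableAt ℂ (fun u : Z × K => c (x₀, u.1)) (z₀, 0) :=
      (AnalyticAt.comp_of_eq cc (analyticAt_const.prod analyticAt_fst) rfl).differentiableAt
    have a2 := a1.hasFDerivAt.clm_apply (K.subtypeL.comp (.snd ℂ Z K)).hasFDerivAt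
    have a3 := (HasFDerivAt.comp ((z₀, 0) : Z × K) hks hasFDerivAt_fst).add a2
    refine (a3.congr_of_eventuallyEq (.of_forall fun u => map_add _ _ _)).congr_fderiv ?_
    ext <;> simp [L]
  have hL' : fderiv ℂ f (x₀, z₀, 0) ∘L .inr ℂ X (Z × K) = pr.comp L :=
    ((hf.differentiableAt (by simp)).hasFDerivAt.comp ((z₀, 0) : Z × K)
      (hasFDerivAt_prodMk_right x₀ _)).unique (pr.hasFDerivAt.comp _ hL)
  have hinv : (fderiv ℂ f (x₀, z₀, 0) ∘L .inr ℂ X (Z × K)).IsInvertible := by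
    rw [hL']
    have m : ∀ u, L u ∈ Z1 := fun u => (h1 _).2 ⟨u.1, u.2, rfl⟩
    refine ⟨ContinuousLinearEquiv.ofBijective (pr.comp L) (LinearMap.ker_eq_bot'.2 fun u hu => ?_)
      (LinearMap.range_eq_top.2 fun w => ?_), rfl⟩
    · have e : L u = 0 := congrArg Subtype.val ((pr1 _ (m u)).symm.trans hu)
      have e1 : u.1 = 0 := hi _ (-u.2) (by rw [map_neg]; exact eq_neg_of_add_eq_zero_left e)
      refine Prod.ext e1 (vs_injK hc ?_)
      simpa [L, e1] using e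
    · obtain ⟨ζ, ψ, e⟩ := (h1 w).1 w.2
      obtain ⟨w', hw, k, hk, rfl⟩ := Submodule.mem_sup.1
        (hc.sup_eq_top.symm ▸ Submodule.mem_top : ψ ∈ LinearMap.ker (c _).toLinearMap ⊔ K)
      refine ⟨(ζ, ⟨k, hk⟩), (pr1 _ (m _)).trans (Subtype.ext ?_)⟩
      have hw' : c (x₀, z₀) w' = 0 := hw
      simp [L, e, hw']
  have f0 : f (x₀, z₀, 0) = 0 := by simp [f, h0]
  have g0 := hf.implicitFunction_apply_self (by simp) hinv
  have ga := (hf.contDiffAt_implicitFunction (by simp) hinv).analyticAt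
  have g1 := hf.eventually_apply_implicitFunction (by simp) hinv
  have g2 := hf.eventually_apply_eq_iff_implicitFunction (by simp) hinv
  generalize hf.implicitFunction (by simp) hinv = g at g0 ga g1 g2
  have ten : Tendsto (fun x => (x, (g x).1)) (𝓝 x₀) (𝓝 (x₀, z₀)) := by
    have := (continuousAt_id.prodMk (continuousAt_fst.comp ga.continuousAt)).tendsto
    simpa only [_root_.id, comp, g0] using this
  refine ⟨g, ga, g0, ?_, g2.mono fun v hv h => hv.1 (by rw [f0]; simp only [f, h, map_zero])⟩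
  filter_upwards [g1, ten.eventually id] with x a1 a3 ok
  exact congrArg Subtype.val (a3 (a₁ := ⟨_, pr0 _ (a1.trans f0)⟩) (a₂ := 0)
    ((ok _).trans (map_zero _).symm))

/-- five terms `A → B → C → D → E` of a family of complexes; `C` is the term of degree zero -/
structure Cx (Y A B C D E : Type*) [NormedAddCommGroup A] [NormedSpace ℂ A]
    [NormedAddCommGroup B] [NormedSpace ℂ B] [NormedAddCommGroup C] [NormedSpace ℂ C]
    [NormedAddCommGroup D] [NormedSpace ℂ D] [NormedAddCommGroup E] [NormedSpace ℂ E] where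
  a : Y → A →L[ℂ] B
  b : Y → B →L[ℂ] C
  c : Y → C →L[ℂ] D
  d : Y → D →L[ℂ] E

/-- the fibre over `y` is a complex -/
def Cx.Ok {Y : Type*} (K : Cx Y A B C D E) (y : Y) : Prop :=
  (∀ u, K.b y (K.a y u) = 0) ∧ (∀ u, K.c y (K.b y u) = 0) ∧ ∀ u, K.d y (K.c y u) = 0

/-- **Versality.** -/
theorem Cx.vers [CompleteSpace X] [FiniteDimensional ℂ Z] [FiniteDimensional ℂ B]
    [FiniteDimensional ℂ C] [FiniteDimensional ℂ D] (K : Cx (X × Z) A B C D E) {x₀ : X} {z₀ : Z}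
    {φ₀ : C} {ks : Z →L[ℂ] D} (ca : ContinuousAt K.a (x₀, z₀)) (cb : ContinuousAt K.b (x₀, z₀))
    (cc : AnalyticAt ℂ K.c (x₀, z₀)) (cd : ContinuousAt K.d (x₀, z₀))
    (hks : HasFDerivAt (fun z => K.c (x₀, z) φ₀) ks z₀)
    (hm : ∀ v, K.b (x₀, z₀) v = 0 → ∃ u, v = K.a (x₀, z₀) u)
    (h0 : K.c (x₀, z₀) φ₀ = 0) (hn : ∀ v, φ₀ ≠ K.b (x₀, z₀) v)
    (hs : ∀ ψ, K.c (x₀, z₀) ψ = 0 → ∃ (t : ℂ) (v : B), ψ = t • φ₀ + K.b (x₀, z₀) v)
    (h1 : ∀ w, K.d (x₀, z₀) w = 0 ↔ ∃ ζ ψ, w = ks ζ + K.c (x₀, z₀) ψ)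
    (hi : ∀ ζ ψ, ks ζ = K.c (x₀, z₀) ψ → ζ = 0) :
    ∃ (ζ : X → Z) (φ : X → C), AnalyticAt ℂ ζ x₀ ∧ AnalyticAt ℂ φ x₀ ∧ ζ x₀ = z₀ ∧ φ x₀ = φ₀ ∧
      (∀ᶠ x in 𝓝 x₀, K.Ok (x, ζ x) → K.c (x, ζ x) (φ x) = 0 ∧ (∀ v, φ x ≠ K.b (x, ζ x) v) ∧
        ∀ ψ, K.c (x, ζ x) ψ = 0 → ∃ (t : ℂ) (v : B), ψ = t • φ x + K.b (x, ζ x) v) ∧
      ∀ᶠ y in 𝓝 (x₀, z₀), K.Ok y → ∀ ψ, K.c y ψ = 0 → (∀ v, ψ ≠ K.b y v) → ζ y.1 = y.2 := by
  have := FiniteDimensional.complete ℂ Z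
  have := FiniteDimensional.complete ℂ C
  obtain ⟨Kc, hc⟩ := (LinearMap.ker (K.c (x₀, z₀)).toLinearMap).exists_isCompl
  have := FiniteDimensional.complete ℂ Kc
  obtain ⟨g, ga, g0, g1, g2⟩ := vs_core cc cd hks h0 h1 hi hc
  have ζa : AnalyticAt ℂ (fun x => (g x).1) x₀ := analyticAt_fst.comp ga
  have φa : AnalyticAt ℂ (fun x => φ₀ + ((g x).2 : C)) x₀ :=
    analyticAt_const.add ((Kc.subtypeL.analyticAt _).comp (analyticAt_snd.comp ga))
  have e1 : (g x₀).1 = z₀ := by rw [g0]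
  have e2 : φ₀ + ((g x₀).2 : C) = φ₀ := by simp [g0]
  have c0 : ContinuousAt (fun x => (x, (g x).1)) x₀ := continuousAt_id.prodMk ζa.continuousAt
  have e3 : (x₀, (g x₀).1) = (x₀, z₀) := by rw [e1]
  have ten : Tendsto (fun x => (x, (g x).1)) (𝓝 x₀) (𝓝 (x₀, z₀)) := e3 ▸ c0.tendsto
  have dec := vs_dec cb hs hc
  have ic := vs_injK hc
  have inj := vs_inj (cc.continuousAt.clm_comp continuousAt_const) ic
  refine ⟨fun x => (g x).1, fun x => φ₀ + (g x).2, ζa, φa, e1, e2, ?_, ?_⟩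
  · filter_upwards [g1, vs_nz (a := fun x => K.a (x, (g x).1)) (b := fun x => K.b (x, (g x).1))
      (ca.comp_of_eq c0 e3) (cb.comp_of_eq c0 e3) φa.continuousAt (by rw [e3]; exact hm)
      (by rw [e3, e2]; exact hn), ten.eventually dec, ten.eventually inj] with x a1 a2 a5 a6 ok
    have b1 := a1 ok.2.2
    refine ⟨b1, a2 ok.1, fun ψ hψ => ?_⟩
    obtain ⟨v, t, k, rfl⟩ := a5 ψ
    rw [map_add, ok.2.1, zero_add] at hψ
    have : k = t • (g x).2 := a6 (by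
      rw [map_add] at b1 hψ
      simp only [ContinuousLinearMap.comp_apply, Submodule.subtypeL_apply, map_smul] at hψ ⊢
      rw [eq_neg_of_add_eq_zero_right hψ, eq_neg_of_add_eq_zero_right b1, smul_neg])
    exact ⟨t, v, by rw [this, smul_add, add_comm]; rfl⟩
  · obtain ⟨ε, ε0, hε⟩ := Metric.eventually_nhds_iff.1 g2
    obtain ⟨a, a0, ha⟩ := vs_low (cc.continuousAt.clm_comp continuousAt_const) ic
    have c1 : ContinuousAt (fun y => a * ‖K.c y φ₀‖) (x₀, z₀) :=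
      continuousAt_const.mul (cc.continuousAt.clm_apply continuousAt_const).norm
    filter_upwards [dec, inj, ha, Metric.ball_mem_nhds (x₀, z₀) ε0,
      c1.eventually_lt continuousAt_const (show a * ‖K.c (x₀, z₀) φ₀‖ < ε by simpa [h0])]
      with y a1 a2 a3 a4 a5 ok ψ hψ nψ
    obtain ⟨v, t, k, rfl⟩ := a1 ψ
    rw [map_add, ok.2.1, zero_add] at hψ
    have t0 : t ≠ 0 := by
      rintro rfl
      have : k = 0 := a2 (by simpa using hψ)
      exact nψ v (by simp [this])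
    have b1 : K.c y (φ₀ + (t⁻¹ • k : Kc)) = 0 := by
      have := congrArg (t⁻¹ • ·) hψ
      simpa [smul_add, inv_smul_smul₀ t0] using this
    have b2 : ‖(t⁻¹ • k : Kc)‖ < ε := by
      refine (a3 _).trans_lt (lt_of_eq_of_lt ?_ a5)
      rw [map_add] at b1
      rw [← norm_neg (K.c y φ₀), ← eq_neg_of_add_eq_zero_right b1]
      rfl
    have b3 := Metric.mem_ball.1 a4
    rw [Prod.dist_eq, max_lt_iff] at b3
    exact congrArg Prod.fst (hε (y := (y.1, y.2, t⁻¹ • k)) (by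
      simp only [Prod.dist_eq, max_lt_iff, dist_zero_right]
      exact ⟨b3.1, b3.2, b2⟩) b1)

end Vale.Agent.P287T.Df
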