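import Vale.Agent.P287T.Df.St
import Vale.Agent.P287T.Df.Abs
import Vale.Agent.P287T.Df.Vers
import Vale.Agent.P287T.Dt.Cx
import Vale.Agent.P287T.Oc.Tp

/-!
# The complex of maps as a continuous family, semicontinuity (P287 phase 2, block DEF)
-/

open MvPolynomial Filter Topology Module

namespace Vale.Agent.P287T.Df

open Vale.Agent.P287T.Cy Vale.Agent.P287Z.T

variable {ι κ : Type} [Fintype ι] [DecidableEq ι] [Fintype κ] [DecidableEq κ]

/-- the differential of the complex of maps, as a bilinear map -/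
noncomputable def dB (p : ι → ℤ) (q : κ → ℤ) {a b : ℤ} (h : a + 3 = b) :
    (MM p p 3 × MM q q 3) →ₗ[ℂ] MM p q a →ₗ[ℂ] MM p q b :=
  LinearMap.mk₂ ℂ (fun x g => ⟨Dt.DD p x.1.1 x.2.1 g.1, MM_mul (add_zero b)
      (sub_mem (MM_mul (by lia) x.2.2 g.2) (MM_mul h g.2 x.1.2)) (Dt.eps_mem p)⟩)
    (fun x y g => Subtype.ext (by
      change ((x.2.1 + y.2.1) * g.1 - g.1 * (x.1.1 + y.1.1)) * Dt.eps p =
        (x.2.1 * g.1 - g.1 * x.1.1) * Dt.eps p + (y.2.1 * g.1 - g.1 * y.1.1) * Dt.eps p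
      rw [← Matrix.add_mul, Matrix.add_mul x.2.1, Matrix.mul_add g.1, add_sub_add_comm]))
    (fun c x g => Subtype.ext (by
      change ((c • x.2.1) * g.1 - g.1 * (c • x.1.1)) * Dt.eps p =
        c • ((x.2.1 * g.1 - g.1 * x.1.1) * Dt.eps p)
      rw [Matrix.smul_mul, Matrix.mul_smul, ← smul_sub, Matrix.smul_mul]))
    (fun _ _ _ => Subtype.ext (map_add _ _ _)) (fun _ _ _ => Subtype.ext (map_smul _ _ _))

/-- the differential `g ↦ (e * g - g * d) * eps p` of the complex of maps from `(p, d)` to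
`(q, e)`, as a continuous linear function of `(d, e)` -/
noncomputable def dL (p : ι → ℤ) (q : κ → ℤ) {a b : ℤ} (h : a + 3 = b) :
    (MM p p 3 × MM q q 3) →L[ℂ] MM p q a →L[ℂ] MM p q b := toL2 (dB p q h)

variable {p : ι → ℤ} {q : κ → ℤ} {a b c j : ℤ} {W : S6}

omit [DecidableEq κ] in
theorem dL_val (h : a + 3 = b) (x : MM p p 3 × MM q q 3) (g : MM p q a) :
    (dL p q h x g).1 = (x.2.1 * g.1 - g.1 * x.1.1) * Dt.eps p := rfl

omit [DecidableEq κ] in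
theorem zz_iff (h : a + 3 = b) (x : MM p p 3 × MM q q 3) (g : MM p q a) :
    g.1 ∈ ZZ p x.1.1 q x.2.1 a ↔ dL p q h x g = 0 := by
  rw [Dt.ZZ_eq, Subtype.ext_iff]
  exact ⟨fun k => k.2, fun k => ⟨g.2, k⟩⟩

omit [DecidableEq κ] in
theorem bb_iff (h : a + 3 = b) (x : MM p p 3 × MM q q 3) (g : MM p q b) :
    g.1 ∈ BB p x.1.1 q x.2.1 b ↔ ∃ k, g = dL p q h x k := by
  obtain rfl : a = b - 3 := by lia
  rw [Dt.BB_eq x.1.2, Submodule.mem_map]
  exact ⟨fun ⟨k, hk, e⟩ => ⟨⟨k, hk⟩, Subtype.ext e.symm⟩,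
    fun ⟨k, e⟩ => ⟨k.1, k.2, (congrArg Subtype.val e).symm⟩⟩

theorem dL_dL (h : a + 3 = b) (h' : b + 3 = c) {x : MM p p 3 × MM q q 3} (hd : IsMF W p x.1.1)
    (he : IsMF W q x.2.1) (g : MM p q a) : dL p q h' x (dL p q h x g) = 0 :=
  (zz_iff h' x _).1 (Dt.BB_le hd he ((bb_iff h x _).2 ⟨g, rfl⟩))

omit [DecidableEq κ] in
theorem finrank_BB (h : a + 3 = b) (x : MM p p 3 × MM q q 3) :
    finrank ℂ (BB p x.1.1 q x.2.1 b) = finrank ℂ (dL p q h x).range := by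
  rw [← Submodule.finrank_map_subtype_eq (MM p q b) (dL p q h x).range]
  refine congrArg (fun S : Submodule ℂ (Matrix κ ι S6) => finrank ℂ S) (le_antisymm ?_ ?_)
  · intro g hg
    have hm : g ∈ MM p q b := by
      obtain ⟨k, hk, rfl⟩ := hg
      exact add_mem (MM_mul (by lia) x.2.2 hk) (MM_mul (by lia) hk x.1.2)
    obtain ⟨k, e⟩ := (bb_iff h x ⟨g, hm⟩).1 hg
    exact ⟨_, ⟨k, e.symm⟩, rfl⟩
  · rintro _ ⟨_, ⟨k, rfl⟩, rfl⟩
    exact (bb_iff h x _).2 ⟨k, rfl⟩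

theorem finrank_HH {d : Matrix ι ι S6} {e : Matrix κ κ S6} (hd : IsMF W p d) (he : IsMF W q e)
    (j : ℤ) : finrank ℂ (HH p d q e j) + finrank ℂ (BB p d q e j) +
      finrank ℂ (BB p d q e (j + 3)) = finrank ℂ (MM p q j) := by
  have := Dt.zz_fin (p := q) (q := p) (e := d) (d := e) (j := j)
  rw [finrank_hq (Dt.BB_le hd he), Dt.finrank_map (T := MM p q j) (Dt.DD p d e), ← Dt.ZZ_eq,
    Dt.BB_eq hd.deg, add_sub_cancel_right]

omit [DecidableEq κ] in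
theorem ev_BB (x0 : MM p p 3 × MM q q 3) (j : ℤ) : ∀ᶠ x : MM p p 3 × MM q q 3 in 𝓝 x0,
    finrank ℂ (BB p x0.1.1 q x0.2.1 j) ≤ finrank ℂ (BB p x.1.1 q x.2.1 j) := by
  simp only [finrank_BB (sub_add_cancel j 3)]
  exact abs_rank (dL p q _).continuous.continuousAt

/-- **semicontinuity** -/
theorem sc : StSc := by
  intro ι κ _ _ _ _ p q d0 e0 W0 hd he j
  refine ⟨?_, fun hm g0 hg => ?_⟩
  · filter_upwards [ev_BB (d0, e0) j, ev_BB (d0, e0) (j + 3)] with x h1 h2 W k1 k2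
    have h3 := finrank_HH k1 k2 j
    have h4 := finrank_HH hd he j
    change finrank ℂ (BB p d0.1 q e0.1 _) ≤ _ at h1 h2
    lia
  · have h1 := vs_nz (y₀ := ((d0, e0), g0))
      (a := fun x : (MM p p 3 × MM q q 3) × MM p q j => dL p q (sub_add_cancel (j - 3) 3) x.1)
      (b := fun x => dL p q (sub_add_cancel j 3) x.1) (φ := fun x => x.2)
      ((dL p q _).continuous.comp continuous_fst).continuousAt
      ((dL p q _).continuous.comp continuous_fst).continuousAt continuousAt_snd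
      (fun v hv => (bb_iff _ (d0, e0) v).1 (hm ((zz_iff _ (d0, e0) v).2 hv)))
      (fun v hv => hg ((bb_iff _ (d0, e0) g0).2 ⟨v, hv⟩))
    filter_upwards [h1] with x hx W k1 k2 k
    obtain ⟨v, hv⟩ := (bb_iff (sub_add_cancel j 3) x.1 x.2).1 k
    exact hx (dL_dL _ _ k1 k2) v hv

section eps

variable {d : Matrix ι ι S6} {e : Matrix κ κ S6} {g : Matrix κ ι S6}

omit [Fintype κ] [DecidableEq κ] in
theorem mul_eps_eps (g : Matrix κ ι S6) : g * Dt.eps p * Dt.eps p = g := by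
  rw [Matrix.mul_assoc, Dt.eps_sq, Matrix.mul_one]

omit [DecidableEq κ] in
theorem zz_neg (hd : d ∈ MM p p 3) (h : g ∈ ZZ p d q e j) : g * Dt.eps p ∈ ZZ p d q (-e) j :=
  ⟨MM_mul (add_zero j) h.1 (Dt.eps_mem p), by
    rw [Matrix.mul_assoc g, Dt.eps_anti hd, Matrix.neg_mul, Matrix.mul_neg, ← Matrix.mul_assoc,
      h.2, Matrix.mul_assoc]⟩

omit [DecidableEq κ] in
theorem bb_neg (hd : d ∈ MM p p 3) (h : g ∈ BB p d q e j) : g * Dt.eps p ∈ BB p d q (-e) j := by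
  obtain ⟨k, hk, rfl⟩ := h
  refine ⟨-(k * Dt.eps p), neg_mem (MM_mul (add_zero _) hk (Dt.eps_mem p) : _ ∈ MM p q (j - 3)), ?_⟩
  rw [Matrix.neg_mul (k * _), Matrix.mul_assoc k, Dt.eps_anti hd, Matrix.mul_neg k, neg_neg,
    Matrix.neg_mul, Matrix.mul_neg, neg_neg, Matrix.add_mul, Matrix.mul_assoc, Matrix.mul_assoc]

omit [DecidableEq κ] in
theorem zz_neg_iff (hd : d ∈ MM p p 3) : g ∈ ZZ p d q (-e) j ↔ g * Dt.eps p ∈ ZZ p d q e j :=
  ⟨fun h => by simpa only [neg_neg] using zz_neg hd h,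
    fun h => by simpa only [mul_eps_eps] using zz_neg hd h⟩

omit [DecidableEq κ] in
theorem bb_neg_iff (hd : d ∈ MM p p 3) : g ∈ BB p d q (-e) j ↔ g * Dt.eps p ∈ BB p d q e j :=
  ⟨fun h => by simpa only [neg_neg] using bb_neg hd h,
    fun h => by simpa only [mul_eps_eps] using bb_neg hd h⟩

omit [DecidableEq ι] [DecidableEq κ] in
theorem mem_tan : g ∈ ZZ p d q (-e) j ↔ g ∈ MM p q j ∧ e * g + g * d = 0 := by
  rw [mem_ZZ, Matrix.neg_mul, neg_eq_iff_add_eq_zero]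

omit [DecidableEq ι] [DecidableEq κ] in
theorem mem_trv : g ∈ BB p d q (-e) 3 ↔ ∃ h ∈ MM p q 0, g = h * d - e * h := by
  rw [mem_BB]
  simp only [sub_self, Matrix.neg_mul, neg_add_eq_sub]

/-- the identity of a noncontractible factorization -/
theorem one_notMem_BB (h : finrank ℂ (HH p d p d 0) ≠ 0) : (1 : Matrix ι ι S6) ∉ BB p d p d 0 :=
  fun k => by
    have := hq_subsingleton (Z := ZZ p d p d 0) (B := BB p d p d 0) fun g hg => by
      simpa only [Matrix.mul_one] using Dt.ZB_mul hg k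
    exact h finrank_zero_of_subsingleton

theorem one_mem_ZZ : (1 : Matrix ι ι S6) ∈ ZZ p d p d 0 :=
  ⟨MM_one p, by rw [Matrix.mul_one, Matrix.one_mul]⟩

end eps

section hq

variable {U : Type*} [AddCommGroup U] [Module ℂ U] {Z B : Submodule ℂ U}

theorem hq_mk_eq_zero (z : Z) : (Submodule.Quotient.mk z : HQ Z B) = 0 ↔ z.1 ∈ B :=
  Submodule.Quotient.mk_eq_zero _

theorem hq_le_one [Module.Finite ℂ Z] (h : finrank ℂ (HQ Z B) ≤ 1) :
    ∃ ε ∈ Z, ∀ y ∈ Z, ∃ c : ℂ, y - c • ε ∈ B := by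
  obtain ⟨v, hv⟩ := finrank_le_one_iff.1 h
  obtain ⟨ε, rfl⟩ := Submodule.Quotient.mk_surjective _ v
  refine ⟨ε.1, ε.2, fun y hy => ?_⟩
  obtain ⟨c, hc⟩ := hv (Submodule.Quotient.mk ⟨y, hy⟩)
  exact ⟨c, (Submodule.Quotient.eq (B.submoduleOf Z)).1
    (hc.symm.trans (Submodule.Quotient.mk_smul _ _ _).symm)⟩

theorem hq_span [Module.Finite ℂ Z] (h : finrank ℂ (HQ Z B) ≤ 1) {u : U} (hu : u ∈ Z)
    (hu' : u ∉ B) {y : U} (hy : y ∈ Z) : ∃ c : ℂ, y - c • u ∈ B := by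
  obtain ⟨ε, -, k⟩ := hq_le_one h
  obtain ⟨a, ha⟩ := k u hu
  obtain ⟨c, hc⟩ := k y hy
  have h1 : a ≠ 0 := fun e => hu' (by simpa [e] using ha)
  refine ⟨c / a, ?_⟩
  have h2 := sub_mem hc (B.smul_mem (c / a) ha)
  rwa [smul_sub, smul_smul, div_mul_cancel₀ _ h1, sub_sub_sub_cancel_right] at h2

theorem hq_pos [Module.Finite ℂ Z] {u : U} (hu : u ∈ Z) (hu' : u ∉ B) :
    0 < finrank ℂ (HQ Z B) :=
  finrank_pos_iff_exists_ne_zero.2
    ⟨Submodule.Quotient.mk ⟨u, hu⟩, fun k => hu' ((hq_mk_eq_zero _).1 k)⟩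

theorem hq_zero [Module.Finite ℂ Z] (h : finrank ℂ (HQ Z B) = 0) : Z ≤ B := fun u hu => by
  by_contra k
  exact (hq_pos hu k).ne' h

end hq

section ks

variable {d : Matrix ι ι S6} {Z : Type} [NormedAddCommGroup Z] [NormedSpace ℂ Z]

theorem KS.finrank_eq {L : Z →L[ℂ] MM p p 3} (hd : d ∈ MM p p 3) (k : KS p d L) :
    finrank ℂ (HH p d p d 3) = finrank ℂ Z := by
  let F : Z →ₗ[ℂ] ZZ p d p d 3 :=
    { toFun := fun z => ⟨(L z).1 * Dt.eps p, (zz_neg_iff hd).1 (k.cl z)⟩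
      map_add' := fun _ _ => Subtype.ext (by simp only [map_add]; exact Matrix.add_mul _ _ _)
      map_smul' := fun _ _ => Subtype.ext (by simp only [map_smul]; exact Matrix.smul_mul _ _ _) }
  refine (LinearEquiv.ofBijective (((BB p d p d 3).submoduleOf _).mkQ ∘ₗ F) ⟨?_, ?_⟩).finrank_eq.symm
  · exact (injective_iff_map_eq_zero _).2 fun z hz =>
      k.inj z ((bb_neg_iff hd).2 ((hq_mk_eq_zero _).1 hz))
  · intro y
    obtain ⟨g, rfl⟩ := Submodule.Quotient.mk_surjective _ y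
    obtain ⟨z, hz⟩ := k.onto _ (zz_neg hd g.2)
    refine ⟨z, ((Submodule.Quotient.eq _).2 ?_).symm⟩
    have h1 := (bb_neg_iff hd).1 hz
    rwa [Matrix.sub_mul, mul_eps_eps] at h1

theorem exists_KS [FiniteDimensional ℂ Z] (hd : d ∈ MM p p 3)
    (h : finrank ℂ (HH p d p d 3) = finrank ℂ Z) : ∃ L : Z →L[ℂ] MM p p 3, KS p d L := by
  have := Dt.zz_fin (p := p) (q := p) (e := d) (d := d) (j := 3)
  obtain ⟨e⟩ := FiniteDimensional.nonempty_linearEquiv_of_finrank_eq h.symm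
  obtain ⟨s, hs⟩ := (((BB p d p d 3).submoduleOf (ZZ p d p d 3)).mkQ).exists_rightInverse_of_surjective
    (Submodule.range_mkQ _)
  have h1 : ∀ y, Submodule.Quotient.mk (s y) = y := fun y => LinearMap.congr_fun hs y
  let F : Z →ₗ[ℂ] MM p p 3 :=
    { toFun := fun z => ⟨(s (e z)).1 * Dt.eps p, (zz_neg hd (s (e z)).2).1⟩
      map_add' := fun _ _ => Subtype.ext (by rw [map_add, map_add]; exact Matrix.add_mul _ _ _)
      map_smul' := fun _ _ => Subtype.ext (by rw [map_smul, map_smul]; exact Matrix.smul_mul _ _ _) }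
  refine ⟨LinearMap.toContinuousLinearMap F, fun z => zz_neg hd (s (e z)).2, fun z hz => ?_,
    fun g hg => ?_⟩
  · have h2 : (s (e z)).1 * Dt.eps p * Dt.eps p ∈ BB p d p d 3 := (bb_neg_iff hd).1 hz
    rw [mul_eps_eps, ← hq_mk_eq_zero, h1] at h2
    exact e.map_eq_zero_iff.1 h2
  · refine ⟨e.symm (Submodule.Quotient.mk ⟨_, (zz_neg_iff hd).1 hg⟩), (bb_neg_iff hd).2 ?_⟩
    change (g - (s (e (e.symm _))).1 * Dt.eps p) * Dt.eps p ∈ _
    rw [e.apply_symm_apply, Matrix.sub_mul, mul_eps_eps]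
    exact (Submodule.Quotient.eq ((BB p d p d 3).submoduleOf (ZZ p d p d 3))).1
      (h1 (Submodule.Quotient.mk ⟨_, (zz_neg_iff hd).1 hg⟩)).symm

end ks

end Vale.Agent.P287T.Df
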