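import Vale.Agent.P287T.Oc.Conf
import Vale.Agent.P287T.Oc.Lim
import Vale.Agent.P287T.Cl.St
import Vale.Agent.P287T.Sw.Sys

/-!
# The semistable objects of a primitive isotropic class form a good class
-/

open CategoryTheory Filter Topology

namespace Vale.Agent.P287T.Df

open Vale.Agent.P294 P291Z P287Q P287T.Cy P287T.G3 P287T.Rr P287T.Top P287T.Cl
  P287T.Sw

variable {W : S6}

theorem clD (hr : HRR) (hm : StMem) (ha : StAdd) (c : Cu W) : ClD (clE c) where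
  fst _ := rfl
  mem E := (hm c E.isMF).1
  hdg E := (hm c E.isMF).2
  add := (ha c).1
  chi E F := by rw [Sw.chi_eq]; exact Cl.chi_eq hr c E.isMF F.isMF

theorem tyH (hm : StMem) : Oc.TyH := fun c _ _ h => (hm c h).2

theorem J_ne {v : Cls W} (hp : PrimA v.1) (hv : Top.mk v v = 0) : JF W (v.2 * v.2) ≠ 0 := by
  intro h
  rw [Top.mk, h, sub_zero, ← Complex.normSq_eq_conj_mul_self, Complex.ofReal_re] at hv
  have h1 : v.1 = 0 := by simpa using hv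
  obtain ⟨p1, p2, h2, hc⟩ := hp
  have h3 := q1_eq p1 p2
  have h4 := q2_eq p1 p2
  rw [← Pq_eq h2, h1] at h3 h4
  rw [← h3, ← h4] at hc
  exact not_isCoprime_zero_zero (by simpa only [q1, q2, Complex.zero_re, Complex.zero_im, zero_div,
    sub_zero, mul_zero, Int.floor_zero] using hc)

theorem cl_near (c : Cu W) (E : HM W) :
    ∀ᶠ d in 𝓝 (dM E), ∀ h : IsMF W E.pz d.1, clE c (ofRaw h) = clE c E :=
  (Oc.flat_fix c (d0 := dM E) E.isMF).mono fun _ hd h =>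
    Prod.ext rfl (congrArg Subtype.val (hd h))

theorem conf_of (hm : StMem) (hper : Per.StPer) (c : Cu W) {E : HM W}
    (hJ : JF W ((clE c E).2 * (clE c E).2) ≠ 0) : ∃ (w : T3 → Hs 6) (f : T3 → ℂ),
      (w 0).1 = W ∧ Conf w 0 E.pz (dM E) f := by
  obtain ⟨r, Φ, σ, η, k⟩ := hper T3 c.per p3 p3_hom
  have e : W + p3 0 = W := by rw [map_zero, add_zero]
  have ht := Metric.mem_ball_self (x := (0 : T3)) k.pos
  have key : ∀ (V : S6) (_ : V = W) (c' : Cu V) (h : IsMF V E.pz E.dz),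
      JF V (nH c' h * nH c' h) ≠ 0 := by
    rintro V rfl c' h
    exact hJ
  have h0 : IsMF (W + p3 0) E.pz (dM E).1 := e.symm ▸ E.isMF
  refine ⟨_, _, e, Oc.conf k (tyH hm) p3_hom p3_onto ht (k.sm 0 ht).cu h0 rfl ?_⟩
  exact fun h => key _ e _ h0 (((Per.stTop c.per (k.sm 0 ht) (k.tr 0 ht)).2.1 _).symm.trans
    ((congrArg _ (map_mul _ _ _)).trans h))

theorem slice_of (hsl : StSlice) {E : HM W} (hE : Pt W E.pz E.dz) {w : T3 → Hs 6} {f : T3 → ℂ}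
    (e : (w 0).1 = W) (h : Conf w 0 E.pz (dM E) f) :
    ∃ s : (Fin 2 → ℂ) → MM E.pz E.pz 3, AnalyticAt ℂ s 0 ∧ s 0 = dM E ∧
      ∀ᶠ z in 𝓝 0, IsMF W E.pz (s z).1 ∧ KS E.pz (s z).1 (fderiv ℂ s z) := by
  obtain ⟨s, h1, h2, h3⟩ := hsl w 0 E.pz (dM E) f (e.symm ▸ hE) h
  have h4 : f 0 = 0 := h.conf.self_of_nhds (e.symm ▸ E.isMF)
  refine ⟨fun z => s (0, z), h1.comp_of_eq (analyticAt_const.prod analyticAt_id) rfl, h2, ?_⟩
  filter_upwards [(Continuous.prodMk_right (0 : T3)).continuousAt.eventually h3] with z hz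
  exact ⟨e ▸ (hz h4).1.mf, (hz h4).2⟩

/-- **The moduli problem of a primitive isotropic class.** -/
theorem gd (hr : HRR) (hm : StMem) (ha : StAdd) (hper : Per.StPer) (hsl : StSlice)
    (hO : Oc.OpO) (hP : Oc.OpP) (c : Cu W) {v : Cls W} (hp : PrimA v.1) (hv : Top.mk v v = 0) (φ : ℝ) :
    Gd W fun E => (sgW c).P φ E ∧ clE c E = v := by
  have D := clD hr hm ha c
  have hpt : ∀ {E : HM W}, (sgW c).P φ E ∧ clE c E = v → Pt W E.pz E.dz := fun h =>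
    ptW c D.intZ h.1 (D.pm (h.2 ▸ hp)) (D.chi_zero hv h.2 h.2)
  refine ⟨fun h ⟨e⟩ => ⟨⟨((sgW c).ts φ).isoU e h.1.1, (sgW c).isoVc e h.1.2⟩,
    (D.add.isoG e).symm.trans h.2⟩, hpt,
    fun hE hF f hf => ?_, fun hE => ?_, fun hE => ?_, fun I 𝒰 X hX => ?_⟩
  · have := schurW c D.intZ hE.1 hF.1 (D.pm (hE.2 ▸ hp)) (D.pm (hF.2 ▸ hp)) hf
    exact ⟨asIso f⟩
  · obtain ⟨w, f, e, h⟩ := conf_of hm hper c (hE.2 ▸ J_ne hp hv)
    exact slice_of hsl (hpt hE) e h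
  · filter_upwards [Oc.open_raw hO c (fun _ => tendsto_const_nhds) tendsto_id hE.1, cl_near c _]
      with d h1 h2 h
    exact ⟨h1 c h, (h2 h).trans hE.2⟩
  · obtain ⟨E, hE, d, h1, h2⟩ := Oc.cpt_raw hP 𝒰 (fun _ => c) c (fun _ => tendsto_const_nhds) X
      (φ := φ) (z := (1 - om) ^ 3 * v.1) (Eventually.of_forall fun n =>
        ⟨(hX n).1, by rw [(ha c).2.2, (hX n).2]⟩)
    obtain ⟨n, ⟨h, ⟨e⟩⟩, h3⟩ := (h2.and (h1.eventually (cl_near c E))).exists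
    exact ⟨E, ⟨hE, (h3 h).symm.trans ((D.add.isoG e).trans (hX n).2)⟩, d, h1, h2⟩

end Vale.Agent.P287T.Df
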