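import Vale.Agent.P287T.Df.Gd

/-!
# Extensions between semistable objects of a primitive isotropic class, in raw form
-/

open CategoryTheory Module

namespace Vale.Agent.P287T.Df

open Vale.Agent.P294 P287T.Cy P287T.G3 P287T.Rr P287T.Top P287T.Sw

variable {W : S6} {cl : HM W → Cls W} (D : ClD cl) (c : Cu W) {v : Cls W} (hp : PrimA v.1)
  (hv : Top.mk v v = 0) {φ : ℝ} {E F : HM W}
include D hp hv

theorem dimQ (hE : (sgW c).P φ E ∧ cl E = v) (k : ℤ) :
    finrank ℂ (HH E.pz E.dz E.pz E.dz (3 * k)) =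
      if k = 0 ∨ k = 2 then 1 else if k = 1 then 2 else 0 := by
  obtain ⟨-, d0, d1, d2, d3⟩ := D.intZ.latD.dims (cy2 c) (stabW c) hE.1 (D.pm (hE.2 ▸ hp))
  rw [D.chi_zero hv hE.2 hE.2] at d1
  rw [← hd_eq]
  split_ifs with h1 h2
  · rcases h1 with rfl | rfl
    exacts [d0, d2]
  · subst h2
    omega
  · exact d3 k (by omega)

theorem ortQ (hE : (sgW c).P φ E ∧ cl E = v) (hF : (sgW c).P φ F ∧ cl F = v)
    (hne : IsEmpty (E ≅ F)) (k : ℤ) :
    ZZ E.pz E.dz F.pz F.dz (3 * k) ≤ BB E.pz E.dz F.pz F.dz (3 * k) :=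
  (hom_sh_zero_iff E F k).1 ((cy2 c).fr_zero.1 (orthW c D.intZ hE.1 hF.1 (D.pm (hE.2 ▸ hp))
    (D.pm (hF.2 ▸ hp)) hne (D.chi_zero hv hE.2 hF.2) k))

omit hv in
theorem chgQ (hE : cl E = v) : zE E.pz ≠ 0 := fun h => by
  have := D.pm (hE ▸ hp)
  rw [Pm, aE, h, zero_div] at this
  exact not_isCoprime_zero_zero (by simpa only [q1, q2, Complex.zero_re, Complex.zero_im, zero_div,
    sub_zero, mul_zero, Int.floor_zero] using this)

end Vale.Agent.P287T.Df
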