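import Vale.Agent.P287T.Df.Cx

/-!
# The Kuranishi retraction and the slice (P287 phase 2, block DEF)
-/

open MvPolynomial Filter Topology Module

namespace Vale.Agent.P287T.Df

open Vale.Agent.P287T.Cy Vale.Agent.P287Z.T

variable {ι : Type} [Fintype ι] [DecidableEq ι] {p : ι → ℤ}

/-- the defect `d * d - W` -/
noncomputable def kurMu (p : ι → ℤ) (W : Hs 6) (d : MM p p 3) : MM p p 6 :=
  mulL p p p (a := 3) (b := 3) (c := 6) rfl d d -
    smulL p p (a := 6) (b := 0) (c := 6) rfl W (oneM p)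

/-- the anticommutator with `d` -/
noncomputable def kurAc (p : ι → ℤ) : MM p p 3 →L[ℂ] MM p p 3 →L[ℂ] MM p p 6 :=
  mulL p p p (a := 3) (b := 3) (c := 6) rfl + (mulL p p p (a := 3) (b := 3) (c := 6) rfl).flip

/-- the anticommutator with `d` on homotopies -/
noncomputable def kurAc' (p : ι → ℤ) : MM p p 3 →L[ℂ] MM p p (0 - 3) →L[ℂ] MM p p 0 :=
  mulL p p p (a := 3) (b := 0 - 3) (c := 0) rfl +
    (mulL p p p (a := 0 - 3) (b := 3) (c := 0) rfl).flip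

/-- the commutator with `d` -/
noncomputable def kurCm (p : ι → ℤ) : MM p p 3 →L[ℂ] MM p p 0 →L[ℂ] MM p p 3 :=
  (mulL p p p (a := 0) (b := 3) (c := 3) rfl).flip - mulL p p p (a := 3) (b := 0) (c := 3) rfl

theorem kurMu_val (W : Hs 6) (d : MM p p 3) :
    (kurMu p W d).1 = d.1 * d.1 - W.1 • (1 : Matrix ι ι S6) := rfl

omit [DecidableEq ι] in
theorem kurAc_val (d g : MM p p 3) : (kurAc p d g).1 = d.1 * g.1 + g.1 * d.1 := rfl

omit [DecidableEq ι] in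
theorem kurAc'_val (d : MM p p 3) (g : MM p p (0 - 3)) :
    (kurAc' p d g).1 = d.1 * g.1 + g.1 * d.1 := rfl

theorem kurMu_eq_zero {W : Hs 6} {d : MM p p 3} : kurMu p W d = 0 ↔ IsMF W.1 p d.1 := by
  rw [kurMu, sub_eq_zero, Subtype.ext_iff]
  exact ⟨fun h => ⟨d.2, h⟩, fun h => h.sq⟩

omit [DecidableEq ι] in
theorem kurAc_eq_zero {d g : MM p p 3} : kurAc p d g = 0 ↔ g.1 ∈ ZZ p d.1 p (-d.1) 3 := by
  rw [mem_tan, Subtype.ext_iff]
  exact ⟨fun h => ⟨g.2, h⟩, fun h => h.2⟩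

omit [DecidableEq ι] in
theorem kurCm_iff {d g : MM p p 3} : g.1 ∈ BB p d.1 p (-d.1) 3 ↔ ∃ h, g = kurCm p d h := by
  rw [mem_trv]
  exact ⟨fun ⟨h, hh, e⟩ => ⟨⟨h, hh⟩, Subtype.ext e⟩,
    fun ⟨h, e⟩ => ⟨h.1, h.2, congrArg Subtype.val e⟩⟩

omit [DecidableEq ι] in
theorem kurCm_eq_zero {d : MM p p 3} {g : MM p p 0} :
    kurCm p d g = 0 ↔ g.1 ∈ ZZ p d.1 p d.1 0 := by
  rw [Subtype.ext_iff]
  exact ⟨fun h => ⟨g.2, (sub_eq_zero.1 h).symm⟩, fun h => sub_eq_zero.2 h.2.symm⟩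

theorem kurAc_kurCm {W : S6} {d : MM p p 3} (hd : IsMF W p d.1) (g : MM p p 0) :
    kurAc p d (kurCm p d g) = 0 := by
  have hn : IsMF W p (-d.1) := ⟨neg_mem hd.deg, by rw [neg_mul_neg, hd.sq]⟩
  have h1 : (kurCm p d g).1 ∈ BB p d.1 p (-d.1) 3 := kurCm_iff.2 ⟨g, rfl⟩
  exact kurAc_eq_zero.2 (Dt.BB_le hd hn h1)

theorem kurMu_der (W : Hs 6) (d : MM p p 3) : HasFDerivAt (kurMu p W) (kurAc p d) d := by
  have h := ((mulL p p p (a := 3) (b := 3) (c := 6) rfl).hasFDerivAt_of_bilinear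
    (hasFDerivAt_id d) (hasFDerivAt_id d)).sub_const
    (smulL p p (a := 6) (b := 0) (c := 6) rfl W (oneM p))
  exact h.congr_fderiv (ContinuousLinearMap.ext fun _ => rfl)

theorem kurMu_an (x : Hs 6 × MM p p 3) :
    AnalyticAt ℂ (fun x : Hs 6 × MM p p 3 => kurMu p x.1 x.2) x :=
  (((mulL p p p (a := 3) (b := 3) (c := 6) rfl).analyticAt_bilinear _).comp
    (analyticAt_snd.prod analyticAt_snd)).sub
    ((((smulL p p (a := 6) (b := 0) (c := 6) rfl).flip (oneM p)).analyticAt _).comp analyticAt_fst)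

/-- **Kuranishi** -/
theorem kur : StKur := by
  intro ι _ _ T _ _ _ w t0 p d0 f hd h2 hc π hπ hπ'
  have := Dt.zz_fin (p := p) (q := p) (e := d0.1) (d := d0.1) (j := 6)
  obtain ⟨ε, hε, k⟩ := hq_le_one h2
  have a1 : AnalyticAt ℂ (fun x : T × MM p p 3 => kurMu p (w x.1) x.2) (t0, d0) :=
    AnalyticAt.comp (g := fun x : Hs 6 × MM p p 3 => kurMu p x.1 x.2)
      (f := fun x : T × MM p p 3 => (w x.1, x.2)) (kurMu_an _)
      ((AnalyticAt.comp (g := w) (f := Prod.fst) (x := (t0, d0)) hc.an analyticAt_fst).prod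
        analyticAt_snd)
  have a2 : ContinuousAt (fun x : T × MM p p 3 => dL p p (a := 6) (b := 9) rfl (x.2, x.2))
      (t0, d0) := ((dL p p _).continuous.comp (continuous_snd.prodMk continuous_snd)).continuousAt
  have a3 : ∀ x : T × MM p p 3,
      dL p p (a := 6) (b := 9) rfl (x.2, x.2) (kurMu p (w x.1) x.2) = 0 := fun x =>
    (zz_iff _ (x.2, x.2) _).1 ⟨(kurMu p (w x.1) x.2).2, by
      rw [kurMu_val, Matrix.mul_sub, Matrix.sub_mul, Matrix.mul_assoc, Matrix.mul_smul,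
        Matrix.smul_mul, Matrix.mul_one, Matrix.one_mul]⟩
  have a4 : ∀ y, dL p p (a := 6) (b := 9) rfl (d0, d0) y = 0 →
      ∃ (c : ℂ) (v : MM p p 3), y = kurAc p d0 v + c • (⟨ε, hε.1⟩ : MM p p 6) := fun y hy => by
    obtain ⟨c, v, hv, e⟩ := k y.1 ((zz_iff _ (d0, d0) y).2 hy)
    refine ⟨c, ⟨v, hv⟩, Subtype.ext ?_⟩
    rw [Submodule.coe_add, kurAc_val]
    exact sub_eq_iff_eq_add.1 e
  obtain ⟨σ, h1, h3, h4⟩ := abs_kur a1 (kurMu_eq_zero.2 hd) a2 (Eventually.of_forall a3)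
    (kurMu_der (w t0) d0) a4 (fun v => kurAc_eq_zero.2 (hπ v))
    (fun v hv => hπ' v (kurAc_eq_zero.1 hv)) hc.fan hc.df
    (hc.conf.mono fun x hx e => hx (kurMu_eq_zero.1 e))
  exact ⟨σ, h1, h3, h4.mono fun x hx => ⟨hx.1, fun e => kurMu_eq_zero.1 (hx.2.1 e),
    fun e => hx.2.2 (kurMu_eq_zero.2 e)⟩⟩

omit [DecidableEq ι] in
theorem exists_proj (d0 : MM p p 3) : ∃ π : MM p p 3 →L[ℂ] MM p p 3,
    (∀ g, (π g).1 ∈ ZZ p d0.1 p (-d0.1) 3) ∧
      ∀ g : MM p p 3, g.1 ∈ ZZ p d0.1 p (-d0.1) 3 → π g = g := by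
  obtain ⟨π, hπ⟩ := LinearMap.exists_extend (LinearMap.id (R := ℂ) (M := (kurAc p d0).ker))
  refine ⟨LinearMap.toContinuousLinearMap ((kurAc p d0).ker.subtype ∘ₗ π),
    fun g => kurAc_eq_zero.1 (π g).2, fun g hg => ?_⟩
  exact congrArg Subtype.val (LinearMap.congr_fun hπ ⟨g, kurAc_eq_zero.2 hg⟩)

/-- being point-like is an open condition up to the dimension of the tangent space -/
theorem Pt.ev {W0 : S6} {d0 : MM p p 3} (h : Pt W0 p d0.1) : ∀ᶠ d : MM p p 3 in 𝓝 d0, ∀ W,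
    IsMF W p d.1 → ZZ p d.1 p d.1 (-3) ≤ BB p d.1 p d.1 (-3) ∧
      finrank ℂ (HH p d.1 p d.1 0) = 1 ∧ finrank ℂ (HH p d.1 p d.1 3) ≤ 2 ∧
      finrank ℂ (HH p d.1 p d.1 6) ≤ 1 := by
  have h1 : Tendsto (fun d : MM p p 3 => (d, d)) (𝓝 d0) (𝓝 (d0, d0)) :=
    (continuous_id.prodMk continuous_id).tendsto d0
  have h2 := fun j => h1.eventually (sc p p d0 d0 W0 h.mf h.mf j).1
  have h3 := (h1.prodMk_nhds (tendsto_const_nhds (x := oneM p))).eventually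
    ((sc p p d0 d0 W0 h.mf h.mf 0).2 h.hm (oneM p) (one_notMem_BB (h.h0.trans_ne one_ne_zero)))
  filter_upwards [h2 (-3), h2 0, h2 3, h2 6, h3] with d a1 a2 a3 a4 a5 W k
  have := fun j => Dt.zz_fin (p := p) (q := p) (e := d.1) (d := d.1) (j := j)
  have := hq_subsingleton h.hm
  exact ⟨hq_zero (Nat.le_zero.1 ((a1 W k k).trans finrank_zero_of_subsingleton.le)),
    le_antisymm ((a2 W k k).trans h.h0.le) (hq_pos one_mem_ZZ (a5 W k k)),
    (a3 W k k).trans h.h1.le, (a4 W k k).trans h.h2⟩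

/-- bijectivity of the Kodaira-Spencer map is an open condition -/
theorem KS.ev {Y Z : Type} [TopologicalSpace Y] [NormedAddCommGroup Z] [NormedSpace ℂ Z]
    [FiniteDimensional ℂ Z] {y0 : Y} {d : Y → MM p p 3} {L : Y → Z →L[ℂ] MM p p 3}
    (cd : ContinuousAt d y0) (cL : ContinuousAt L y0)
    (h0 : finrank ℂ (HH p (d y0).1 p (d y0).1 0) = 1) (k : KS p (d y0).1 (L y0)) : ∀ᶠ y in 𝓝 y0, ∀ W, IsMF W p (d y).1 →
      (∀ z, (L y z).1 ∈ ZZ p (d y).1 p (-(d y).1) 3) → KS p (d y).1 (L y) := by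
  have c0 : ContinuousAt (fun y => kurCm p (d y)) y0 := (kurCm p).continuous.continuousAt.comp cd
  have c1 : ContinuousAt (fun y => kurAc p (d y)) y0 := (kurAc p).continuous.continuousAt.comp cd
  have cm : ContinuousAt (fun y => kurAc' p (d y)) y0 := (kurAc' p).continuous.continuousAt.comp cd
  obtain ⟨K, hK⟩ := (kurAc p (d y0)).ker.exists_isCompl
  obtain ⟨K0, hK0⟩ := (kurCm p (d y0)).ker.exists_isCompl
  have h1 := vs_exact (a := fun y => (L y).comp (.fst ℂ Z (MM p p 0)) +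
      (kurCm p (d y)).comp (.snd ℂ Z (MM p p 0)))
    ((cL.clm_comp continuousAt_const).add (c0.clm_comp continuousAt_const)) c1
    (fun v hv => by
      obtain ⟨z, hz⟩ := k.onto v.1 (kurAc_eq_zero.1 hv)
      obtain ⟨u, hu⟩ := (kurCm_iff (g := v - L y0 z)).1 hz
      exact ⟨(z, u), sub_eq_iff_eq_add'.1 hu⟩) hK
  have := Dt.zz_fin (p := p) (q := p) (e := (d y0).1) (d := (d y0).1) (j := 0)
  have h2 := vs_dec (φ₀ := oneM p) cm (fun ψ hψ => by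
      obtain ⟨c, v, hv, e⟩ := hq_span h0.le one_mem_ZZ
        (one_notMem_BB (h0.trans_ne one_ne_zero)) (kurCm_eq_zero.1 hψ)
      exact ⟨c, ⟨v, hv⟩, Subtype.ext (sub_eq_iff_eq_add'.1 e)⟩) hK0
  have h3 := abs_inj (A := fun y => (L y).comp (.fst ℂ Z K0) -
      ((kurCm p (d y)).comp K0.subtypeL).comp (.snd ℂ Z K0))
    ((cL.clm_comp continuousAt_const).sub
      ((c0.clm_comp continuousAt_const).clm_comp continuousAt_const))
    (fun v hv => by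
      have e : L y0 v.1 = kurCm p (d y0) v.2.1 := sub_eq_zero.1 hv
      have e1 : v.1 = 0 := k.inj _ (kurCm_iff.2 ⟨_, e⟩)
      rw [e1, map_zero] at e
      exact Prod.ext e1 (Subtype.ext
        ((Submodule.disjoint_def.1 hK0.disjoint) _ e.symm v.2.2)))
  filter_upwards [h1, h2, h3] with y a1 a2 a3 W hd hc
  refine ⟨hc, fun z hz => ?_, fun g hg => ?_⟩
  · obtain ⟨u, hu⟩ := kurCm_iff.1 hz
    obtain ⟨v, t, u', rfl⟩ := a2 u
    rw [map_add, map_add, map_smul, kurCm_eq_zero.2 (Dt.BB_le hd hd ⟨v.1, v.2, rfl⟩),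
      kurCm_eq_zero.2 one_mem_ZZ, smul_zero, zero_add, zero_add] at hu
    exact congrArg Prod.fst (a3 (z, u') (sub_eq_zero.2 hu))
  · have b1 : ∀ u : Z × MM p p 0, kurAc p (d y) (L y u.1 + kurCm p (d y) u.2) = 0 := fun u => by
      rw [map_add, kurAc_eq_zero.2 (hc u.1), zero_add]
      exact kurAc_kurCm hd u.2
    obtain ⟨u, hu⟩ := (a1 b1).2 ⟨g, hg.1⟩ (kurAc_eq_zero.2 hg)
    have b2 : (⟨g, hg.1⟩ : MM p p 3) = L y u.1 + kurCm p (d y) u.2 := hu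
    have b3 : ((⟨g, hg.1⟩ : MM p p 3) - L y u.1).1 ∈ BB p (d y).1 p (-(d y).1) 3 :=
      kurCm_iff.2 ⟨u.2, by rw [b2, add_sub_cancel_left]⟩
    exact ⟨u.1, b3⟩

/-- the derivative of a family of factorizations is a cocycle -/
theorem der_mem {Z : Type} [NormedAddCommGroup Z] [NormedSpace ℂ Z] {s : Z → MM p p 3} {z : Z}
    {W : Hs 6} (hs : DifferentiableAt ℂ s z) (h : ∀ᶠ y in 𝓝 z, IsMF W.1 p (s y).1) (v : Z) :
    (fderiv ℂ s z v).1 ∈ ZZ p (s z).1 p (-(s z).1) 3 := by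
  have h1 := (kurMu_der W (s z)).comp z hs.hasFDerivAt
  have h2 : HasFDerivAt (kurMu p W ∘ s) (0 : Z →L[ℂ] MM p p 6) z :=
    (hasFDerivAt_const (0 : MM p p 6) z).congr_of_eventuallyEq
      (h.mono fun _ k => kurMu_eq_zero.2 k)
  exact kurAc_eq_zero.1 (DFunLike.congr_fun (h1.unique h2) v)

/-- **the slice** -/
theorem slice : StSlice := by
  intro ι _ _ T _ _ _ w t0 p d0 f hp hc
  have : CompleteSpace T := FiniteDimensional.complete ℂ T
  obtain ⟨π, hπ, hπ'⟩ := exists_proj d0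
  obtain ⟨σ, hσ, hσ0, hs⟩ := kur w t0 p d0 f hp.mf hp.h2 hc π hπ hπ'
  obtain ⟨L, hL⟩ := exists_KS (Z := Fin 2 → ℂ) d0.2 (by rw [hp.h1, finrank_fin_fun])
  have hi : AnalyticAt ℂ (fun x : T × (Fin 2 → ℂ) => (x.1, d0 + L x.2)) (t0, 0) :=
    analyticAt_fst.prod (analyticAt_const.add ((L.analyticAt _).comp analyticAt_snd))
  have hi0 : ((t0, d0 + L 0) : T × MM p p 3) = (t0, d0) := by rw [map_zero, add_zero]
  have ht : Tendsto (fun x : T × (Fin 2 → ℂ) => (x.1, d0 + L x.2)) (𝓝 (t0, 0)) (𝓝 (t0, d0)) :=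
    hi0 ▸ hi.continuousAt.tendsto
  obtain ⟨s, hsd⟩ : ∃ s : T × (Fin 2 → ℂ) → MM p p 3, s = fun x => σ (x.1, d0 + L x.2) := ⟨_, rfl⟩
  have ha : AnalyticAt ℂ s (t0, 0) := hsd ▸ AnalyticAt.comp (g := σ) (hi0.symm ▸ hσ) hi
  have h0 : s (t0, 0) = d0 := by rw [hsd]; exact (congrArg σ hi0).trans hσ0
  have h1 : ∀ᶠ x : T × (Fin 2 → ℂ) in 𝓝 (t0, 0), π (s x) = π (d0 + L x.2) ∧
      (f x.1 = 0 → IsMF (w x.1).1 p (s x).1) :=
    hsd ▸ (ht.eventually hs).mono fun x hx => ⟨hx.1, hx.2.1⟩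
  have hin : ∀ x : T × (Fin 2 → ℂ), Tendsto (fun z => (x.1, z)) (𝓝 x.2) (𝓝 x) := fun x =>
    (continuous_const.prodMk continuous_id).tendsto x.2
  have h2 : ∀ᶠ x : T × (Fin 2 → ℂ) in 𝓝 (t0, 0),
      HasFDerivAt (fun z => s (x.1, z)) (fderiv ℂ s x ∘L .inr ℂ T _) x.2 :=
    ha.eventually_analyticAt.mono fun x hx =>
      hx.differentiableAt.hasFDerivAt.comp x.2 (hasFDerivAt_prodMk_right x.1 x.2)
  have h3 : ∀ᶠ x : T × (Fin 2 → ℂ) in 𝓝 (t0, 0), f x.1 = 0 → ∀ v,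
      ((fderiv ℂ s x ∘L .inr ℂ T _) v).1 ∈ ZZ p (s x).1 p (-(s x).1) 3 := by
    filter_upwards [h2, h1.eventually_nhds] with x a b e v
    rw [← a.fderiv]
    exact der_mem (W := w x.1) a.differentiableAt (((hin x).eventually b).mono fun _ k => k.2 e) v
  have f0 : f t0 = 0 := hc.conf.self_of_nhds hp.mf
  have h4 : fderiv ℂ s (t0, 0) ∘L .inr ℂ T _ = L := by
    have a1 := π.hasFDerivAt.comp (0 : Fin 2 → ℂ) h2.self_of_nhds
    have a2 : HasFDerivAt (fun z => π (d0 + L z)) (π ∘L L) 0 :=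
      π.hasFDerivAt.comp (0 : Fin 2 → ℂ) (L.hasFDerivAt.const_add d0)
    have a3 := a1.unique (a2.congr_of_eventuallyEq
      (((hin (t0, 0)).eventually h1).mono fun _ k => k.1))
    refine ContinuousLinearMap.ext fun v => ?_
    have a4 := h3.self_of_nhds f0 v
    rw [h0] at a4
    exact (hπ' _ a4).symm.trans ((DFunLike.congr_fun a3 v).trans (hπ' _ (hL.cl v)))
  have h5 := KS.ev (d := s) (L := fun x => fderiv ℂ s x ∘L .inr ℂ T _) ha.continuousAt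
    (ha.fderiv.continuousAt.clm_comp continuousAt_const) (h0.symm ▸ hp.h0) (by rw [h4, h0]; exact hL)
  have h6 := (h0 ▸ ha.continuousAt.tendsto).eventually hp.ev
  refine ⟨s, ha, h0, ?_⟩
  filter_upwards [h1, h2, h3, h5, h6] with x a1 a2 a3 a5 a6 e
  have b1 := a5 _ (a1.2 e) (a3 e)
  obtain ⟨b2, b3, -, b4⟩ := a6 _ (a1.2 e)
  rw [a2.fderiv]
  exact ⟨⟨a1.2 e, b2, b3, (b1.finrank_eq (s x).2).trans (finrank_fin_fun ℂ), b4⟩, b1⟩

end Vale.Agent.P287T.Df
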