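import Vale.Agent.P287T.Df.VerM
import Vale.Agent.P287T.Df.Atl

/-!
# The moduli surface of a good class of matrix factorizations
-/

open MvPolynomial Filter Topology CategoryTheory Set
open scoped Manifold ContDiff

namespace Vale.Agent.P287T.Df

open Vale.Agent.P287T.Cy Vale.Agent.P287T.G3

variable {W : S6} {Q : HM W → Prop} {ι κ : Type} [Fintype ι] [DecidableEq ι] [Fintype κ]
  [DecidableEq κ] {p : ι → ℤ} {q : κ → ℤ}

theorem md_nz {d : Matrix κ κ S6} {e : Matrix ι ι S6} (h : IsMF W q d) (hP : Pt W p e)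
    (k : Nonempty (ofRaw h ≅ ofRaw hP.mf)) : ¬ZZ q d p e 0 ≤ BB q d p e 0 := fun a =>
  (vmE_of h hP.mf k).elim fun H => H.nz hP (a ⟨H.hφ, H.cφ⟩)

theorem md_trans {E F G : HM W} (a : Nonempty (E ≅ F)) (b : Nonempty (F ≅ G)) :
    Nonempty (E ≅ G) := a.elim fun a => b.elim fun b => ⟨a ≪≫ b⟩

theorem md_symm {E F : HM W} (a : Nonempty (E ≅ F)) : Nonempty (F ≅ E) := a.elim fun a => ⟨a.symm⟩

theorem Gd.ev (G : Gd W Q) {d : MM q q 3} (h : IsMF W q d.1) (k : Q (ofRaw h)) :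
    ∀ᶠ d' : MM q q 3 in 𝓝 d, ∀ h : IsMF W q d'.1, Q (ofRaw h) := G.op k

theorem Gd.sch (G : Gd W Q) {d : Matrix κ κ S6} {e : Matrix ι ι S6} {h : IsMF W q d}
    {h' : IsMF W p e} (a : Q (ofRaw h)) (b : Q (ofRaw h')) {φ : Matrix ι κ S6}
    (h1 : φ ∈ ZZ q d p e 0) (h2 : φ ∉ BB q d p e 0) : Nonempty (ofRaw h ≅ ofRaw h') :=
  G.schur a b (mkR (E := ofRaw h) (F := ofRaw h') φ h1) fun k =>
    h2 ((mkR_eq_zero (E := ofRaw h) (F := ofRaw h') h1).1 k)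

section

variable {X Z : Type} [NormedAddCommGroup X] [NormedSpace ℂ X] [CompleteSpace X]
  [NormedAddCommGroup Z] [NormedSpace ℂ Z] [FiniteDimensional ℂ Z]

/-- families are induced from a slice -/
theorem Gd.loc (G : Gd W Q) {s : Z → MM p p 3} {z₀ : Z} (hs : AnalyticAt ℂ s z₀)
    (h1 : ∀ᶠ z in 𝓝 z₀, IsMF W p (s z).1) (hQ : Q (ofRaw h1.self_of_nhds))
    (hK : KS p (s z₀).1 (fderiv ℂ s z₀)) {D : X → MM q q 3} {x₀ : X} (hD : AnalyticAt ℂ D x₀)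
    (h₀ : IsMF W q (D x₀).1) (hI : Nonempty (ofRaw h₀ ≅ ofRaw h1.self_of_nhds)) :
    ∃ ζ : X → Z, AnalyticAt ℂ ζ x₀ ∧ ζ x₀ = z₀ ∧ ∀ᶠ x in 𝓝 x₀, ∀ h : IsMF W q (D x).1,
      ∃ h' : IsMF W p (s (ζ x)).1, Nonempty (ofRaw h ≅ ofRaw h') := by
  obtain ⟨ζ, φ, a1, -, a3, a4, -⟩ := versM (s := fun y : X × Z => s y.2) (z₀ := z₀) hD
    (hs.comp_of_eq analyticAt_snd rfl) h₀ (G.pt hQ) hK hI
  have t : Tendsto ζ (𝓝 x₀) (𝓝 z₀) := a3 ▸ a1.continuousAt.tendsto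
  refine ⟨ζ, a1, a3, ?_⟩
  filter_upwards [a4, t.eventually h1, (hs.continuousAt.tendsto.comp t).eventually (G.ev _ hQ),
    hD.continuousAt.eventually (G.ev h₀ (G.iso hQ (md_symm hI)))] with x b1 b2 b3 b4 h
  exact ⟨b2, G.sch (b4 h) (b3 b2) (b1 W h b2).1 (b1 W h b2).2⟩

/-- the members of a slice are not isomorphic -/
theorem Gd.sep (G : Gd W Q) {s : Z → MM p p 3} {z₀ : Z} (hs : AnalyticAt ℂ s z₀)
    (h1 : ∀ᶠ z in 𝓝 z₀, IsMF W p (s z).1) (hQ : Q (ofRaw h1.self_of_nhds))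
    (hK : KS p (s z₀).1 (fderiv ℂ s z₀)) : ∃ V ∈ 𝓝 z₀, ∀ z ∈ V, ∀ z' ∈ V,
      ∀ (h : IsMF W p (s z).1) (h' : IsMF W p (s z').1), Nonempty (ofRaw h ≅ ofRaw h') →
        z = z' := by
  have := FiniteDimensional.complete ℂ Z
  obtain ⟨ζ, φ, -, -, -, -, a5⟩ := versM (s := fun y : Z × Z => s y.2) (z₀ := z₀) hs
    (hs.comp_of_eq analyticAt_snd rfl) h1.self_of_nhds (G.pt hQ) hK ⟨Iso.refl _⟩
  rw [nhds_prod_eq] at a5
  obtain ⟨V, hV, a6⟩ := (eventually_prod_self_iff (r := fun z z' => ∀ W, IsMF W p (s z).1 →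
    IsMF W p (s z').1 → ¬ZZ p (s z).1 p (s z').1 0 ≤ BB p (s z).1 p (s z').1 0 → ζ z = z')).1 a5
  refine ⟨_, inter_mem hV (hs.continuousAt.eventually (G.ev _ hQ)), fun z hz z' hz' h h' k => ?_⟩
  exact (a6 z hz.1 z hz.1 W h h (md_nz h (G.pt (hz.2 h)) ⟨Iso.refl _⟩)).symm.trans
    (a6 z hz.1 z' hz'.1 W h h' (md_nz h (G.pt (hz'.2 h')) k))

end

theorem md_ort' {Y : Type} [NormedAddCommGroup Y] [NormedSpace ℂ Y] {D : Y → MM q q 3}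
    {s : Y → MM p p 3} {y₀ : Y} (hD : AnalyticAt ℂ D y₀) (hs : AnalyticAt ℂ s y₀)
    (h : ZZ q (D y₀).1 p (s y₀).1 0 ≤ BB q (D y₀).1 p (s y₀).1 0) :
    ∀ᶠ y in 𝓝 y₀, ∀ W, IsMF W q (D y).1 → IsMF W p (s y).1 →
      ZZ q (D y).1 p (s y).1 0 ≤ BB q (D y).1 p (s y).1 0 := by
  obtain ⟨-, c2, c3, -⟩ := vmK_an hD hs
  obtain ⟨K, hK⟩ := (LinearMap.ker ((vmK D s).c y₀).toLinearMap).exists_isCompl
  filter_upwards [vs_exact c2.continuousAt c3.continuousAt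
    (fun g hg => (vmK_b g).2 (h ((vmK_c g).1 hg))) hK] with y hy W a b g hg
  have g0 : g ∈ MM q p 0 := hg.1
  exact (vmK_b ⟨g, g0⟩).1 ((hy (vmK_ok a b).2.1).2 ⟨g, g0⟩ ((vmK_c ⟨g, g0⟩).2 hg))

theorem md_ort {d : MM q q 3} {e : MM p p 3} (h : ZZ q d.1 p e.1 0 ≤ BB q d.1 p e.1 0) :
    ∀ᶠ y : MM q q 3 × MM p p 3 in 𝓝 (d, e), ∀ W, IsMF W q y.1.1 → IsMF W p y.2.1 →
      ZZ q y.1.1 p y.2.1 0 ≤ BB q y.1.1 p y.2.1 0 :=
  md_ort' (y₀ := (d, e)) analyticAt_fst analyticAt_snd h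

theorem md_skel (iso : ∀ {E F : HM W}, Q E → Nonempty (E ≅ F) → Q F) :
    ∃ (M : Type) (R : M → HM W), (∀ x, Q (R x)) ∧ (∀ x y, Nonempty (R x ≅ R y) → x = y) ∧
      ∀ E, Q E → ∃ x, Nonempty (R x ≅ E) := by
  let T := {t : Σ n : ℕ, (Fin n → ℤ) × Matrix (Fin n) (Fin n) S6 //
    ∃ h : IsMF W t.2.1 t.2.2, Q (ofRaw h)}
  let ob : T → HM W := fun t => ofRaw t.2.1
  let r : Setoid T := ⟨fun a b => Nonempty (ob a ≅ ob b), fun _ => ⟨Iso.refl _⟩, md_symm, md_trans⟩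
  refine ⟨Quotient r, fun x => ob x.out, fun x => x.out.2.2, fun x y h => Quotient.out_equiv_out.1 h,
    fun E hE => ?_⟩
  let e := (Fintype.equivFin E.ι).symm
  have h : IsMF W (E.pz ∘ e) (E.dz.submatrix e e) := ⟨fun i l => E.isMF.deg _ _, by
    rw [Matrix.submatrix_mul_equiv, E.isMF.sq, Matrix.submatrix_smul, Pi.smul_apply, Pi.smul_apply,
      Matrix.submatrix_one_equiv]⟩
  have k : ofRaw h ≅ E := permR (E := ofRaw h) e (fun _ => rfl) fun _ _ => rfl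
  exact ⟨Quotient.mk r ⟨⟨_, _, _⟩, h, iso hE ⟨k.symm⟩⟩, md_trans (Quotient.mk_out (s := r) _) ⟨k⟩⟩

theorem Gd.chart (G : Gd W Q) {E : HM W} (hE : Q E) : ∃ (s : (Fin 2 → ℂ) → MM E.pz E.pz 3)
    (U : Set (Fin 2 → ℂ)), IsOpen U ∧ 0 ∈ U ∧ s 0 = dM E ∧ (∀ z ∈ U, AnalyticAt ℂ s z ∧
      KS E.pz (s z).1 (fderiv ℂ s z) ∧ ∃ h : IsMF W E.pz (s z).1, Q (ofRaw h)) ∧
      ∀ z ∈ U, ∀ z' ∈ U, ∀ (h : IsMF W E.pz (s z).1) (h' : IsMF W E.pz (s z').1),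
        Nonempty (ofRaw h ≅ ofRaw h') → z = z' := by
  obtain ⟨s, a1, a2, a3⟩ := G.sl hE
  have h1 := a3.mono fun _ h => h.1
  have a4 := (a2 ▸ a1.continuousAt.tendsto).eventually (G.op hE)
  obtain ⟨V, hV, a5⟩ := G.sep a1 h1 (a4.self_of_nhds _) a3.self_of_nhds.2
  obtain ⟨U, b1, b2, b3⟩ := mem_nhds_iff.1
    (inter_mem hV (a1.eventually_analyticAt.and (a3.and a4)))
  exact ⟨s, U, b2, b3, a2, fun z hz => ⟨(b1 hz).2.1, (b1 hz).2.2.1.2, (b1 hz).2.2.1.1,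
    (b1 hz).2.2.2 _⟩, fun z hz z' hz' => a5 z (b1 hz).1 z' (b1 hz').1⟩

theorem md_dM {E : HM W} {d : MM E.pz E.pz 3} (e : d = dM E) (h : IsMF W E.pz d.1) :
    ofRaw h = E := by
  subst e
  rfl

/-- **The moduli surface** -/
theorem stMod : StMod := by
  classical
  intro W Q G
  obtain ⟨M, R, hq, hi, ho⟩ := md_skel (Q := Q) G.iso
  choose s U op z0 s0 gd sp using fun x => G.chart (hq x)
  choose an ks mf hQ using gd
  have ex : ∀ x z, ∃ y, ∀ hz : z ∈ U x, Nonempty (ofRaw (mf x z hz) ≅ R y) := fun x z => by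
    by_cases hz : z ∈ U x
    · exact (ho _ (hQ x z hz)).imp fun y h _ => md_symm h
    · exact ⟨x, fun h => (hz h).elim⟩
  choose σ hσ using ex
  have ev : ∀ x, ∀ z ∈ U x, ∀ᶠ w in 𝓝 z, IsMF W (R x).pz (s x w).1 := fun x z hz =>
    Eventually.mono ((op x).mem_nhds hz) (mf x)
  have σ0 : ∀ x, σ x 0 = x := fun x => hi _ _ (md_symm (md_dM (s0 x) _ ▸ hσ x 0 (z0 x)))
  let A : Atl M (Fin 2 → ℂ) :=
    { σ := σ, U := U, op := op, z0 := z0, s0 := σ0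
      inj := fun x z hz z' hz' e => sp x z hz z' hz' _ _
        (md_trans (hσ x z hz) (md_symm (e ▸ hσ x z' hz')))
      tr := fun x x' z hz z' hz' e => by
        obtain ⟨ζ, a1, a2, a3⟩ := G.loc (an x' z' hz') (ev x' z' hz') (hQ x' z' hz') (ks x' z' hz')
          (an x z hz) (mf x z hz) (md_trans (hσ x z hz) (md_symm (e ▸ hσ x' z' hz')))
        refine ⟨ζ, a1, a2, ?_⟩
        filter_upwards [a3, (op x).mem_nhds hz,
          a1.continuousAt.eventually ((op x').mem_nhds (a2.symm ▸ hz'))] with w b1 b2 b3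
        exact hi _ _ (md_trans (md_symm (hσ x' _ b3))
          (md_trans (md_symm (b1 (mf x w b2)).2) (hσ x w b2))) }
  obtain ⟨top, cs, mfd, hA⟩ := A.exists_mfd
  have c1 : ∀ x, ⇑(chartAt (Fin 2 → ℂ) x).symm = σ x := fun x => (hA x).1
  have c2 : ∀ x, (chartAt (Fin 2 → ℂ) x).target = U x := fun x => (hA x).2.1
  have c3 : ∀ x : M, chartAt (Fin 2 → ℂ) x x = 0 := fun x => (hA x).2.2
  have t2 : T2Space M := atl_t2 (E := Fin 2 → ℂ) fun x x' n => by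
    rw [c1, c1, c3, c3]
    have h := md_ort (d := s x 0) (e := s x' 0) fun g hg => by_contra fun k => n (hi _ _
      (md_dM (s0 x) _ ▸ md_dM (s0 x') _ ▸ G.sch (hQ x 0 (z0 x)) (hQ x' 0 (z0 x')) hg k))
    filter_upwards [((an x 0 (z0 x)).continuousAt.prodMap
      (an x' 0 (z0 x')).continuousAt).eventually h,
      prod_mem_nhds ((op x).mem_nhds (z0 x)) ((op x').mem_nhds (z0 x'))] with z b1 b2 e
    exact md_nz (mf x _ b2.1) (G.pt (hQ x' _ b2.2))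
      (md_trans (hσ x _ b2.1) (md_symm (e ▸ hσ x' _ b2.2))) (b1 W (mf x _ b2.1) (mf x' _ b2.2))
  have cp : CompactSpace M := atl_cpt (E := Fin 2 → ℂ) fun 𝒰 => by
    obtain ⟨E, hE, d, a1, a2⟩ := G.cp M 𝒰 R hq
    obtain ⟨x, hx⟩ := ho E hE
    obtain ⟨ζ, b1, b2, b3⟩ := G.loc (an x 0 (z0 x)) (ev x 0 (z0 x)) (hQ x 0 (z0 x))
      (ks x 0 (z0 x)) (D := id) (x₀ := dM E) analyticAt_id E.isMF
      ((md_dM (s0 x) _).symm ▸ md_symm hx)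
    have t : Tendsto (fun y => ζ (d y)) 𝒰 (𝓝 0) := (b2 ▸ b1.continuousAt.tendsto).comp a1
    refine ⟨x, fun y => ζ (d y), (c3 x).symm ▸ t, ?_⟩
    filter_upwards [a1.eventually b3, a2, t.eventually ((op x).mem_nhds (z0 x))] with y e1 e2 e3
    rw [c1]
    exact hi _ _ (md_trans (md_symm (hσ x _ e3)) (md_trans (md_symm (e1 e2.1).2) e2.2))
  exact ⟨{ M := M, R := R, q := hq, inj := hi, onto := ho, u := s
           u0 := fun x => (c3 x).symm ▸ s0 x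
           an := fun x z hz => an x z (c2 x ▸ hz)
           mdl := fun x z hz => ⟨_, (c1 x).symm ▸ hσ x z (c2 x ▸ hz)⟩
           ks := fun x z hz => ks x z (c2 x ▸ hz) }⟩

namespace Mdu

variable (S : Mdu W Q) (G : Gd W Q)

include G

/-- holomorphic families give holomorphic maps to the moduli surface -/
theorem vers {X : Type} [NormedAddCommGroup X] [NormedSpace ℂ X] [CompleteSpace X]
    {D : X → MM q q 3} {x₀ : X} (hD : AnalyticAt ℂ D x₀) (h₀ : IsMF W q (D x₀).1) {x : S.M}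
    {z₀ : Fin 2 → ℂ} (hz : z₀ ∈ (chartAt (Fin 2 → ℂ) x).target)
    (hI : Nonempty (ofRaw h₀ ≅ S.R ((chartAt (Fin 2 → ℂ) x).symm z₀))) :
    ∃ ζ : X → Fin 2 → ℂ, AnalyticAt ℂ ζ x₀ ∧ ζ x₀ = z₀ ∧ ∀ᶠ t in 𝓝 x₀, ∀ h : IsMF W q (D t).1,
      Nonempty (ofRaw h ≅ S.R ((chartAt (Fin 2 → ℂ) x).symm (ζ t))) := by
  have o := (chartAt (Fin 2 → ℂ) x).open_target.mem_nhds hz
  obtain ⟨ζ, a1, a2, a3⟩ := G.loc (S.an x _ hz) (Eventually.mono o fun z h => (S.mdl x z h).1)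
    (G.iso (S.q _) (md_symm (S.mdl x _ hz).2)) (S.ks x _ hz) hD h₀
    (md_trans hI (md_symm (S.mdl x _ hz).2))
  refine ⟨ζ, a1, a2, ?_⟩
  filter_upwards [a3, (a2 ▸ a1.continuousAt.tendsto).eventually o] with t b1 b2 h
  exact md_trans (b1 h).2 (S.mdl x _ b2).2

/-- continuous families give continuous maps to the moduli surface -/
theorem tendsto {T : Type*} {l : Filter T} {d : T → MM q q 3} {d₀ : MM q q 3} {f : T → S.M}
    {x : S.M} (hd : Tendsto d l (𝓝 d₀)) (h₀ : IsMF W q d₀.1) (hI : Nonempty (ofRaw h₀ ≅ S.R x))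
    (hf : ∀ᶠ t in l, ∃ h : IsMF W q (d t).1, Nonempty (ofRaw h ≅ S.R (f t))) :
    Tendsto f l (𝓝 x) := by
  have hx := mem_chart_source (Fin 2 → ℂ) x
  obtain ⟨ζ, a1, a2, a3⟩ := S.vers G (D := id) (x₀ := d₀) analyticAt_id h₀
    ((chartAt (Fin 2 → ℂ) x).map_source hx) (((chartAt (Fin 2 → ℂ) x).left_inv hx).symm ▸ hI)
  refine (((chartAt (Fin 2 → ℂ) x).tendsto_symm hx).comp
    ((a2 ▸ a1.continuousAt.tendsto).comp hd)).congr' ?_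
  filter_upwards [hd.eventually a3, hf] with t b1 b2
  exact S.inj _ _ (md_trans (md_symm (b1 b2.1)) b2.2)

end Mdu

end Vale.Agent.P287T.Df
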