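import Vale.Agent.P287T.Df.Nm

/-!
# The topology on the spaces of homogeneous matrices is the one of the norm
-/

namespace Vale.Agent.P287T.Df

open Vale.Agent.P287T.Cy

noncomputable scoped instance (priority := 10000) unHs (n : ℤ) : UniformSpace (Hs n) :=
  (ngHs n).toMetricSpace.toPseudoMetricSpace.toUniformSpace

noncomputable scoped instance (priority := 10000) tpHs (n : ℤ) : TopologicalSpace (Hs n) :=
  (ngHs n).toMetricSpace.toPseudoMetricSpace.toUniformSpace.toTopologicalSpace

noncomputable scoped instance (priority := 10000) unMM {ι κ : Type} [Finite ι] [Finite κ]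
    (p : ι → ℤ) (q : κ → ℤ) (j : ℤ) : UniformSpace (MM p q j) :=
  (ngMM p q j).toMetricSpace.toPseudoMetricSpace.toUniformSpace

noncomputable scoped instance (priority := 10000) tpMM {ι κ : Type} [Finite ι] [Finite κ]
    (p : ι → ℤ) (q : κ → ℤ) (j : ℤ) : TopologicalSpace (MM p q j) :=
  (ngMM p q j).toMetricSpace.toPseudoMetricSpace.toUniformSpace.toTopologicalSpace

end Vale.Agent.P287T.Df
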