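import Vale.Agent.P287T.Df.ModD
import Vale.Agent.P287T.Df.Vers
import Vale.Agent.P287T.Df.Tp

/-!
# The complex of maps between two families of matrix factorizations
-/

set_option linter.unusedSectionVars false

open MvPolynomial Filter Topology CategoryTheory Module

namespace Vale.Agent.P287T.Df

open Vale.Agent.P287T.Cy Vale.Agent.P287T.G3 Vale.Agent.P287Z.T

variable {ι κ : Type} [Fintype ι] [DecidableEq ι] [Fintype κ] [DecidableEq κ] {p : ι → ℤ}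
  {q : κ → ℤ}

/-- the differential of the complex of maps from `(q, d)` to `(p, e)` -/
noncomputable def vmD (c : ℂ) {j j' : ℤ} (h : 3 + j = j') (d : MM q q 3) (e : MM p p 3) :
    MM q p j →L[ℂ] MM q p j' :=
  mulL q p p h e + c • (mulL q q p ((add_comm j 3).trans h)).flip d

theorem vmD_val (c : ℂ) {j j' : ℤ} (h : 3 + j = j') (d : MM q q 3) (e : MM p p 3) (g : MM q p j) :
    (vmD c h d e g).1 = e.1 * g.1 + c • (g.1 * d.1) := rfl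

theorem vmD_an {Y : Type*} [NormedAddCommGroup Y] [NormedSpace ℂ Y] (c : ℂ) {j j' : ℤ}
    (h : 3 + j = j') {d : Y → MM q q 3} {e : Y → MM p p 3} {y : Y} (hd : AnalyticAt ℂ d y)
    (he : AnalyticAt ℂ e y) : AnalyticAt ℂ (fun y => vmD c h (d y) (e y)) y :=
  (((mulL q p p h).analyticAt _).comp he).add
    ((((mulL q q p ((add_comm j 3).trans h)).flip.analyticAt _).comp hd).const_smul (c := c))

theorem vmD_sq {W : S6} {c c' : ℂ} (hc : c + c' = 0) (hc' : c * c' = -1) {j j' j'' : ℤ}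
    (h : 3 + j = j') (h' : 3 + j' = j'') {d : MM q q 3} {e : MM p p 3} (hd : IsMF W q d.1)
    (he : IsMF W p e.1) (g : MM q p j) : vmD c' h' d e (vmD c h d e g) = 0 := by
  refine Subtype.ext ?_
  rw [vmD_val, vmD_val, Matrix.mul_add, Matrix.add_mul, Matrix.mul_smul, Matrix.smul_mul,
    ← Matrix.mul_assoc, he.sq, Matrix.mul_assoc g.1, hd.sq, smul_add, smul_smul, mul_comm c', hc',
    Matrix.mul_assoc, add_assoc, ← add_assoc (c • _), ← add_smul, hc]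
  simp

theorem vm_tr {d : Matrix κ κ S6} {e : Matrix ι ι S6} {φ g : Matrix ι κ S6} {ψ : Matrix κ ι S6}
    {m : Matrix κ κ S6} {k : Matrix ι ι S6} {c : ℂ} (hc : c * c = 1) (hφ : e * φ = φ * d)
    (hm : ψ * φ - 1 = d * m + m * d) (hg : e * g + c • (g * d) = 0)
    (hk : g * ψ = e * k + -c • (k * e)) :
    g = e * (k * φ + c • (g * m)) + -c • ((k * φ + c • (g * m)) * d) := by
  have h1 : g * d = -c • (e * g) := by
    rw [eq_neg_of_add_eq_zero_left hg, smul_neg, smul_smul, neg_mul, hc, neg_smul, neg_neg,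
      one_smul]
  have h2 : g = g * ψ * φ - (g * d * m + g * m * d) := by
    rw [Matrix.mul_assoc, Matrix.mul_assoc, Matrix.mul_assoc, ← Matrix.mul_add, ← hm,
      Matrix.mul_sub, Matrix.mul_one, sub_sub_cancel]
  conv_lhs => rw [h2, hk, h1]
  simp only [Matrix.add_mul, Matrix.mul_add, Matrix.smul_mul, Matrix.mul_smul, Matrix.mul_assoc, hφ,
    smul_add, smul_smul, neg_mul, hc, neg_smul, one_smul, Matrix.neg_mul]
  abel

theorem Pt.one_not {W : S6} {e : Matrix ι ι S6} (h : Pt W p e) :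
    (1 : Matrix ι ι S6) ∉ BB p e p e 0 := by
  rintro ⟨k, hk, e1⟩
  have : Subsingleton (HH p e p e 0) := hq_subsingleton fun g hg => ⟨k * g,
    Df.MM_mul (by norm_num) (mem_MM.2 hk) (mem_MM.2 hg.1), by
      rw [Matrix.mul_assoc, ← hg.2, ← Matrix.mul_assoc, ← Matrix.mul_assoc, ← Matrix.add_mul, ← e1,
        Matrix.one_mul]⟩
  exact zero_ne_one (finrank_zero_of_subsingleton.symm.trans h.h0)

theorem vm_one {U : Type*} [AddCommGroup U] [Module ℂ U] {Z B : Submodule ℂ U}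
    (h : finrank ℂ (HQ Z B) = 1) {a g : U} (ha : a ∈ Z) (hb : a ∉ B) (hg : g ∈ Z) :
    ∃ t : ℂ, g - t • a ∈ B := by
  obtain ⟨t, ht⟩ := (finrank_eq_one_iff_of_nonzero' (Submodule.Quotient.mk ⟨a, ha⟩ : HQ Z B)
    fun k => hb ((Submodule.Quotient.mk_eq_zero (B.submoduleOf Z)).1 k)).1 h
    (Submodule.Quotient.mk ⟨g, hg⟩)
  exact ⟨t, (Submodule.Quotient.eq (B.submoduleOf Z) (y := t • ⟨a, ha⟩)).1 ht.symm⟩

theorem Pt.simple {W : S6} {e g : Matrix ι ι S6} (h : Pt W p e) (hg : g ∈ ZZ p e p e 0) :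
    ∃ t : ℂ, g - t • 1 ∈ BB p e p e 0 :=
  vm_one h.h0 ⟨MM_one p, by rw [Matrix.mul_one, Matrix.one_mul]⟩ h.one_not hg

theorem Pt.neg {W : S6} {e g : Matrix ι ι S6} (h : Pt W p e) (hg : g ∈ MM p p (-3))
    (k : e * g + g * e = 0) : ∃ m ∈ MM p p (-6), g = e * m - m * e := by
  have h1 := d_mul_eps h.mf.deg
  obtain ⟨m, hm, e1⟩ := h.hm (x := g * eps p) ⟨Df.MM_mul (add_zero _) hg (eps_mem p), by
    rw [← Matrix.mul_assoc, eq_neg_of_add_eq_zero_left k, Matrix.neg_mul, Matrix.mul_assoc, h1,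
      Matrix.mul_neg, neg_neg, Matrix.mul_assoc]⟩
  refine ⟨m * eps p, Df.MM_mul (by norm_num) (mem_MM.2 hm) (eps_mem p), ?_⟩
  rw [← Matrix.mul_one g, ← eps_mul_eps p, ← Matrix.mul_assoc, e1, Matrix.add_mul,
    Matrix.mul_assoc m e, h1, Matrix.mul_neg, Matrix.mul_assoc, Matrix.mul_assoc, sub_eq_add_neg]

/-- the matrices of a homotopy equivalence -/
structure VmE (q : κ → ℤ) (d : Matrix κ κ S6) (p : ι → ℤ) (e : Matrix ι ι S6) where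
  φ : Matrix ι κ S6
  ψ : Matrix κ ι S6
  m : Matrix κ κ S6
  n : Matrix ι ι S6
  hφ : φ ∈ MM q p 0
  hψ : ψ ∈ MM p q 0
  hm : m ∈ MM q q (-3)
  hn : n ∈ MM p p (-3)
  cφ : e * φ = φ * d
  cψ : d * ψ = ψ * e
  em : ψ * φ - 1 = d * m + m * d
  en : φ * ψ - 1 = e * n + n * e

section

variable {W : S6} {d : Matrix κ κ S6} {e : Matrix ι ι S6}

theorem vmE_of (h : IsMF W q d) (h' : IsMF W p e) (k : Nonempty (ofRaw h ≅ ofRaw h')) :
    Nonempty (VmE q d p e) := by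
  obtain ⟨φ, hφ, ψ, hψ, ⟨m, hm, em⟩, ⟨n, hn, en⟩⟩ := (iso_iff _ _).1 k
  exact ⟨⟨φ, ψ, m, n, hφ.1, hψ.1, hm, hn, hφ.2, hψ.2, em, en⟩⟩

namespace VmE

variable (H : VmE q d p e) {g : Matrix ι κ S6} {ξ : Matrix ι ι S6}

include H in
theorem neg (hP : Pt W p e) (hg : g ∈ MM q p (-3)) (e1 : e * g + (1 : ℂ) • (g * d) = 0) :
    ∃ k ∈ MM q p (-6), g = e * k + (-1 : ℂ) • (k * d) := by
  obtain ⟨k, hk, ek⟩ := hP.neg (Df.MM_mul (add_zero _) hg H.hψ) (by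
    rw [Matrix.mul_assoc, ← H.cψ, ← Matrix.mul_assoc, ← Matrix.mul_assoc, ← Matrix.add_mul,
      ← one_smul ℂ (g * _), e1, Matrix.zero_mul])
  exact ⟨_, add_mem (Df.MM_mul (add_zero _) hk H.hφ) (Submodule.smul_mem _ 1
    (Df.MM_mul rfl hg H.hm)), vm_tr (one_mul 1) H.cφ H.em e1
      (by rw [ek, neg_one_smul, sub_eq_add_neg])⟩

theorem nz (hP : Pt W p e) : H.φ ∉ BB q d p e 0 := by
  rintro ⟨k, hk, e1⟩
  refine hP.one_not ⟨k * H.ψ - H.n, sub_mem (Df.MM_mul (add_zero _) (mem_MM.2 hk) H.hψ) H.hn, ?_⟩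
  rw [Matrix.mul_sub, Matrix.sub_mul, Matrix.mul_assoc, ← H.cψ, ← Matrix.mul_assoc,
    ← Matrix.mul_assoc, sub_add_sub_comm, ← Matrix.add_mul, ← e1, ← H.en, sub_sub_cancel]

theorem simple (hP : Pt W p e) (hg : g ∈ ZZ q d p e 0) :
    ∃ t : ℂ, ∃ k ∈ MM q p (-3), g = t • H.φ + (e * k + (1 : ℂ) • (k * d)) := by
  have e1 := hg.2
  have g0 : g ∈ MM q p 0 := hg.1
  obtain ⟨t, k, hk, ek⟩ := hP.simple (g := g * H.ψ) ⟨Df.MM_mul (add_zero _) g0 H.hψ, by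
    rw [← Matrix.mul_assoc, e1, Matrix.mul_assoc, H.cψ, Matrix.mul_assoc]⟩
  have e2 := vm_tr (g := g - t • H.φ) (k := k - t • H.n) (c := -1) (by simp) H.cφ H.em
    (by rw [Matrix.mul_sub, Matrix.sub_mul, Matrix.mul_smul, Matrix.smul_mul, e1, H.cφ]; simp)
    (by
      rw [neg_neg, one_smul, Matrix.sub_mul, Matrix.mul_sub, Matrix.sub_mul, Matrix.smul_mul,
        Matrix.mul_smul, Matrix.smul_mul, sub_add_sub_comm, ← ek, ← smul_add, ← H.en, smul_sub,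
        sub_sub_sub_cancel_right])
  rw [neg_neg] at e2
  exact ⟨t, _, add_mem (Df.MM_mul (add_zero _) (sub_mem (mem_MM.2 hk)
    (Submodule.smul_mem _ t H.hn)) H.hφ) (Submodule.smul_mem _ (-1) (Df.MM_mul (zero_add _)
    (sub_mem g0 (Submodule.smul_mem _ t H.hφ)) H.hm)), sub_eq_iff_eq_add'.1 e2⟩

theorem cl (hξ : ξ ∈ ZZ p e p (-e) 3) : e * (ξ * H.φ) + (1 : ℂ) • (ξ * H.φ * d) = 0 := by
  rw [one_smul, Matrix.mul_assoc, ← H.cφ, ← Matrix.mul_assoc, ← Matrix.mul_assoc, ← hξ.2]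
  simp

theorem cl' (hg : g ∈ MM q p 3) (e1 : e * g + (1 : ℂ) • (g * d) = 0) :
    g * H.ψ ∈ ZZ p e p (-e) 3 := by
  refine ⟨Df.MM_mul (add_zero _) hg H.hψ, ?_⟩
  rw [one_smul] at e1
  rw [Matrix.neg_mul, ← Matrix.mul_assoc, eq_neg_of_add_eq_zero_left e1, Matrix.neg_mul,
    neg_neg, Matrix.mul_assoc, H.cψ, Matrix.mul_assoc]

theorem onto (hg : g ∈ MM q p 3) (e1 : e * g + (1 : ℂ) • (g * d) = 0) (hξ : ξ ∈ ZZ p e p (-e) 3)
    (hb : g * H.ψ - ξ ∈ BB p e p (-e) 3) :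
    ∃ k ∈ MM q p 0, g = ξ * H.φ + (e * k + (-1 : ℂ) • (k * d)) := by
  obtain ⟨k, hk, ek⟩ := hb
  have ξ0 : ξ ∈ MM p p 3 := hξ.1
  have e2 := vm_tr (g := g - ξ * H.φ) (k := ξ * H.n - k) (c := 1) (by simp) H.cφ H.em
    (by rw [Matrix.mul_sub, Matrix.sub_mul, smul_sub, sub_add_sub_comm, e1, H.cl hξ, sub_zero])
    (by
      rw [Matrix.sub_mul, Matrix.mul_assoc, sub_eq_iff_eq_add.1 H.en, sub_eq_iff_eq_add.1 ek]
      simp only [Matrix.mul_add, Matrix.mul_sub, Matrix.sub_mul, ← Matrix.mul_assoc, ← hξ.2,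
        Matrix.neg_mul, Matrix.mul_one, neg_one_smul]
      abel)
  exact ⟨_, add_mem (Df.MM_mul (add_zero _) (sub_mem (Df.MM_mul rfl ξ0 H.hn) (mem_MM.2 hk)) H.hφ)
    (Submodule.smul_mem _ 1 (Df.MM_mul rfl (sub_mem hg (Df.MM_mul (add_zero _) ξ0 H.hφ)) H.hm)),
    sub_eq_iff_eq_add'.1 e2⟩

theorem inj (hg : g ∈ MM q p 0) (hξ : ξ ∈ ZZ p e p (-e) 3)
    (e1 : ξ * H.φ = e * g + (-1 : ℂ) • (g * d)) : ξ ∈ BB p e p (-e) 3 := by
  have ξ0 : ξ ∈ MM p p 3 := hξ.1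
  refine ⟨-(g * H.ψ + ξ * H.n), neg_mem (add_mem (Df.MM_mul (add_zero _) hg H.hψ)
    (Df.MM_mul rfl ξ0 H.hn)), ?_⟩
  have e2 : ξ = ξ * H.φ * H.ψ - ξ * (H.φ * H.ψ - 1) := by
    rw [Matrix.mul_sub, Matrix.mul_one, Matrix.mul_assoc, sub_sub_cancel]
  conv_lhs => rw [e2, e1, H.en]
  simp only [Matrix.mul_add, Matrix.add_mul, Matrix.neg_mul, Matrix.mul_neg, neg_one_smul,
    Matrix.mul_assoc g, H.cψ]
  simp only [← Matrix.mul_assoc, ← hξ.2, Matrix.neg_mul]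
  abel

end VmE

end

/-- the family of the complexes of maps -/
noncomputable def vmK {Y : Type} (D : Y → MM q q 3) (s : Y → MM p p 3) :
    Cx Y (MM q p (-6)) (MM q p (-3)) (MM q p 0) (MM q p 3) (MM q p 6) :=
  ⟨fun y => vmD (-1) rfl (D y) (s y), fun y => vmD 1 rfl (D y) (s y),
    fun y => vmD (-1) rfl (D y) (s y), fun y => vmD 1 rfl (D y) (s y)⟩

section

variable {Y : Type} {D : Y → MM q q 3} {s : Y → MM p p 3} {y : Y}

theorem vmK_ok {W : S6} (a : IsMF W q (D y).1) (b : IsMF W p (s y).1) : (vmK D s).Ok y :=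
  ⟨vmD_sq (by simp) (by simp) _ _ a b, vmD_sq (by simp) (by simp) _ _ a b,
    vmD_sq (by simp) (by simp) _ _ a b⟩

theorem vmK_av (g : MM q p (-6)) :
    ((vmK D s).a y g).1 = (s y).1 * g.1 + (-1 : ℂ) • (g.1 * (D y).1) := vmD_val _ _ _ _ _

theorem vmK_bv (g : MM q p (-3)) :
    ((vmK D s).b y g).1 = (s y).1 * g.1 + (1 : ℂ) • (g.1 * (D y).1) := vmD_val _ _ _ _ _

theorem vmK_cv (g : MM q p 0) :
    ((vmK D s).c y g).1 = (s y).1 * g.1 + (-1 : ℂ) • (g.1 * (D y).1) := vmD_val _ _ _ _ _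

theorem vmK_dv (g : MM q p 3) :
    ((vmK D s).d y g).1 = (s y).1 * g.1 + (1 : ℂ) • (g.1 * (D y).1) := vmD_val _ _ _ _ _

theorem vmK_c (g : MM q p 0) : (vmK D s).c y g = 0 ↔ g.1 ∈ ZZ q (D y).1 p (s y).1 0 := by
  rw [Subtype.ext_iff, vmK_cv, neg_one_smul, ← sub_eq_add_neg]
  exact ⟨fun h => ⟨g.2, sub_eq_zero.1 h⟩, fun h => sub_eq_zero.2 h.2⟩

theorem vmK_b (g : MM q p 0) : (∃ v, g = (vmK D s).b y v) ↔ g.1 ∈ BB q (D y).1 p (s y).1 0 := by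
  simp only [Subtype.ext_iff, vmK_bv, one_smul]
  exact ⟨fun ⟨v, h⟩ => ⟨v.1, v.2, h⟩, fun ⟨v, hv, h⟩ => ⟨⟨v, hv⟩, h⟩⟩

variable {W : S6} (H : VmE q (D y).1 p (s y).1)

include H in
theorem vmK_hm (hP : Pt W p (s y).1) (g : MM q p (-3)) (hg : (vmK D s).b y g = 0) :
    ∃ u, g = (vmK D s).a y u := by
  obtain ⟨k, h, e⟩ := H.neg hP g.2 ((vmK_bv g).symm.trans (congrArg Subtype.val hg))
  exact ⟨⟨k, h⟩, Subtype.ext (e.trans (vmK_av ⟨k, h⟩).symm)⟩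

theorem vmK_hs (hP : Pt W p (s y).1) (g : MM q p 0) (hg : (vmK D s).c y g = 0) :
    ∃ (t : ℂ) (v : MM q p (-3)), g = t • (⟨H.φ, H.hφ⟩ : MM q p 0) + (vmK D s).b y v := by
  obtain ⟨t, k, h, e⟩ := H.simple hP ((vmK_c _).1 hg)
  refine ⟨t, ⟨k, h⟩, Subtype.ext ?_⟩
  rw [Submodule.coe_add, Submodule.coe_smul, vmK_bv]
  exact e

variable {Z : Type} [NormedAddCommGroup Z] [NormedSpace ℂ Z] {L : Z →L[ℂ] MM p p 3}

theorem vmK_h1 (a : IsMF W q (D y).1) (b : IsMF W p (s y).1) (hK : KS p (s y).1 L) (w : MM q p 3) :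
    (vmK D s).d y w = 0 ↔ ∃ ζ ψ, w = ((mulL q p p (add_zero 3)).flip ⟨H.φ, H.hφ⟩).comp L ζ +
      (vmK D s).c y ψ := by
  have e0 : ∀ ζ, (((mulL q p p (add_zero 3)).flip ⟨H.φ, H.hφ⟩).comp L ζ).1 = (L ζ).1 * H.φ :=
    fun ζ => mulL_val q p p (add_zero 3) (L ζ) ⟨H.φ, H.hφ⟩
  constructor
  · intro hw
    have e1 := (vmK_dv w).symm.trans (congrArg Subtype.val hw)
    obtain ⟨ζ, h⟩ := hK.onto _ (H.cl' w.2 e1)
    obtain ⟨k, h, e⟩ := H.onto w.2 e1 (hK.cl ζ) h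
    refine ⟨ζ, ⟨k, h⟩, Subtype.ext ?_⟩
    rw [Submodule.coe_add, vmK_cv, e0]
    exact e
  · rintro ⟨ζ, g, rfl⟩
    rw [map_add, (vmK_ok a b).2.2, add_zero, Subtype.ext_iff, vmK_dv, e0]
    exact H.cl (hK.cl ζ)

theorem vmK_hi (hK : KS p (s y).1 L) (ζ : Z) (g : MM q p 0)
    (hg : ((mulL q p p (add_zero 3)).flip ⟨H.φ, H.hφ⟩).comp L ζ = (vmK D s).c y g) : ζ = 0 :=
  hK.inj ζ (H.inj g.2 (hK.cl ζ) ((mulL_val q p p (add_zero 3) (L ζ) ⟨H.φ, H.hφ⟩).symm.trans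
    ((congrArg Subtype.val hg).trans (vmK_cv g))))

end

theorem vmK_ks {X Z : Type} [NormedAddCommGroup Z] [NormedSpace ℂ Z] (D : X → MM q q 3)
    (s : X × Z → MM p p 3) {x₀ : X} {z₀ : Z} {L : Z →L[ℂ] MM p p 3}
    (hL : HasFDerivAt (fun z => s (x₀, z)) L z₀) (φ : MM q p 0) :
    HasFDerivAt (fun z => (vmK (fun y : X × Z => D y.1) s).c (x₀, z) φ)
      (((mulL q p p (add_zero 3)).flip φ).comp L) z₀ := by
  have h := (((mulL q p p (add_zero 3)).flip φ).hasFDerivAt.comp z₀ hL).add_const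
    ((-1 : ℂ) • mulL q q p (zero_add 3) φ (D x₀))
  refine h.congr_of_eventuallyEq (.of_forall fun z => Subtype.ext ?_)
  rw [vmK_cv, Submodule.coe_add, Submodule.coe_smul, mulL_val]
  exact congrArg (· + _) (mulL_val q p p (add_zero 3) (s (x₀, z)) φ).symm

theorem vmK_an {Y : Type} [NormedAddCommGroup Y] [NormedSpace ℂ Y] {D : Y → MM q q 3}
    {s : Y → MM p p 3} {y : Y} (hD : AnalyticAt ℂ D y) (hs : AnalyticAt ℂ s y) :
    AnalyticAt ℂ (vmK D s).a y ∧ AnalyticAt ℂ (vmK D s).b y ∧ AnalyticAt ℂ (vmK D s).c y ∧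
      AnalyticAt ℂ (vmK D s).d y :=
  ⟨vmD_an _ _ hD hs, vmD_an _ _ hD hs, vmD_an _ _ hD hs, vmD_an _ _ hD hs⟩

end Vale.Agent.P287T.Df
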