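import Vale.Agent.P287T.Df.VerA

/-!
# Versality of a slice of matrix factorizations
-/

open MvPolynomial Filter Topology CategoryTheory Module

namespace Vale.Agent.P287T.Df

open Vale.Agent.P287T.Cy Vale.Agent.P287T.G3

variable {ι κ : Type} [Fintype ι] [DecidableEq ι] [Fintype κ] [DecidableEq κ] {p : ι → ℤ}
  {q : κ → ℤ}

theorem vmK_one {Y : Type} {D : Y → MM q q 3} {s : Y → MM p p 3} {y : Y} {W : S6} {φ : MM q p 0}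
    {R : Prop} (h : (vmK D s).Ok y → (vmK D s).c y φ = 0 ∧ (∀ v, φ ≠ (vmK D s).b y v) ∧ R)
    (a : IsMF W q (D y).1) (b : IsMF W p (s y).1) :
    φ.1 ∈ ZZ q (D y).1 p (s y).1 0 ∧ φ.1 ∉ BB q (D y).1 p (s y).1 0 :=
  ⟨(vmK_c _).1 (h (vmK_ok a b)).1, fun k => ((vmK_b _).2 k).elim (h (vmK_ok a b)).2.1⟩

theorem vmK_two {Y : Type} {D : Y → MM q q 3} {s : Y → MM p p 3} {y : Y} {W : S6} {R : Prop}
    (h : (vmK D s).Ok y → ∀ ψ, (vmK D s).c y ψ = 0 → (∀ v, ψ ≠ (vmK D s).b y v) → R)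
    (a : IsMF W q (D y).1) (b : IsMF W p (s y).1)
    (c : ¬ZZ q (D y).1 p (s y).1 0 ≤ BB q (D y).1 p (s y).1 0) : R := by
  obtain ⟨g, c1, c2⟩ := SetLike.not_le_iff_exists.1 c
  exact h (vmK_ok a b) ⟨g, c1.1⟩ ((vmK_c _).2 c1) fun v k => c2 ((vmK_b _).1 ⟨v, k⟩)

variable {X Z : Type} [NormedAddCommGroup X] [NormedSpace ℂ X] [CompleteSpace X]
  [NormedAddCommGroup Z] [NormedSpace ℂ Z] [FiniteDimensional ℂ Z]

/-- **Versality of a slice**, between different shapes and with a varying potential -/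
theorem versM {D : X → MM q q 3} {s : X × Z → MM p p 3} {x₀ : X} {z₀ : Z} {W₀ : S6}
    (hD : AnalyticAt ℂ D x₀) (hs : AnalyticAt ℂ s (x₀, z₀)) (h₀ : IsMF W₀ q (D x₀).1)
    (hP : Pt W₀ p (s (x₀, z₀)).1) (hK : KS p (s (x₀, z₀)).1 (fderiv ℂ (fun z => s (x₀, z)) z₀))
    (hI : Nonempty (ofRaw h₀ ≅ ofRaw hP.mf)) :
    ∃ (ζ : X → Z) (φ : X → MM q p 0), AnalyticAt ℂ ζ x₀ ∧ AnalyticAt ℂ φ x₀ ∧ ζ x₀ = z₀ ∧
      (∀ᶠ x in 𝓝 x₀, ∀ W, IsMF W q (D x).1 → IsMF W p (s (x, ζ x)).1 →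
        (φ x).1 ∈ ZZ q (D x).1 p (s (x, ζ x)).1 0 ∧ (φ x).1 ∉ BB q (D x).1 p (s (x, ζ x)).1 0) ∧
      ∀ᶠ y in 𝓝 (x₀, z₀), ∀ W, IsMF W q (D y.1).1 → IsMF W p (s y).1 →
        ¬ZZ q (D y.1).1 p (s y).1 0 ≤ BB q (D y.1).1 p (s y).1 0 → ζ y.1 = y.2 := by
  obtain ⟨H⟩ := vmE_of h₀ hP.mf hI
  have hD' : AnalyticAt ℂ (fun y : X × Z => D y.1) (x₀, z₀) := hD.comp_of_eq analyticAt_fst rfl
  have hL0 : AnalyticAt ℂ (fun z => s (x₀, z)) z₀ :=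
    hs.comp_of_eq (analyticAt_const.prod analyticAt_id) rfl
  have hL := hL0.differentiableAt.hasFDerivAt
  obtain ⟨c1, c2, c3, c4⟩ := vmK_an hD' hs
  have b1 := vmK_ks D s hL ⟨H.φ, H.hφ⟩
  have b2 := vmK_hm (D := fun y : X × Z => D y.1) (s := s) (y := (x₀, z₀)) H hP
  have b3 := (vmK_c (D := fun y : X × Z => D y.1) (s := s) (y := (x₀, z₀)) ⟨H.φ, H.hφ⟩).2
    ⟨H.hφ, H.cφ⟩
  have b4 := fun v hv => H.nz hP ((vmK_b (D := fun y : X × Z => D y.1) (s := s) (y := (x₀, z₀))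
    ⟨H.φ, H.hφ⟩).1 ⟨v, hv⟩)
  have b5 := vmK_hs (D := fun y : X × Z => D y.1) (s := s) (y := (x₀, z₀)) H hP
  have b6 := vmK_h1 (D := fun y : X × Z => D y.1) (s := s) (y := (x₀, z₀)) H h₀ hP.mf hK
  have b7 := vmK_hi (D := fun y : X × Z => D y.1) (s := s) (y := (x₀, z₀)) H hK
  obtain ⟨ζ, f, a1, a2, a3, -, a5, a6⟩ := Cx.vers _ c1.continuousAt c2.continuousAt c3
    c4.continuousAt b1 b2 b3 b4 b5 b6 b7
  exact ⟨ζ, f, a1, a2, a3, a5.mono fun x hx W => vmK_one hx, a6.mono fun y hy W => vmK_two hy⟩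

end Vale.Agent.P287T.Df
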